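import Crest.Agent.X262.Van.Supd
import Crest.Agent.X262.Man.Th
import Crest.Agent.X262.Coh.Basic

/-!
# Row 262, package VAN (helper47): supports on projective models

* `imm_ambM`, `par_of_isEmb` : a closed embedding of models is an injective immersion;
* `supP` : the support statement for `HP`, `intP`, `pullH`;
* `pd_th`, `supd` : `PD` and `SUPD` for the de Rham theory.
-/

set_option autoImplicit false
set_option linter.unusedSectionVars false

open Set Filter Topology Module
open scoped ContDiff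
open Crest.Agent.R208 Crest.Agent.R208.F Crest.Agent.R208.FI Crest.Agent.R208.CW
open Crest.Agent.R208.T

noncomputable section

namespace Crest.Agent.X262.Van

open Crest.Agent.X262.Man Crest.Agent.X262.Coh
open Crest.Agent.X277.Lef Crest.Agent.X277.AN.G1
open Crest.Agent.R275.Geo (Cn)
open Crest.Agent.X277.BD (dim)

variable {F K : Type} [Field F] [Algebra ℂ F] [Field K] [Algebra ℂ K] {P : PModel ℂ F}
  {P' : PModel ℂ K}

/-- a morphism which is surjective on the local ring at `x` is an immersion at `x` -/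
theorem imm_ambM (μ : Mor P' P) (x : Pts P')
    (h : ∀ g ∈ (lp x).O, ∃ f ∈ (lp (μ.map x)).O, μ.p.π f = g) {v : Hm P'.N}
    (hv : v ∈ Tan (XP P') (jP P' x)) (h0 : fderiv ℝ (ambM μ) (jP P' x) v = 0) : v = 0 := by
  obtain ⟨α, hx⟩ := (an P').A.cover x
  have hz := ((an P').A.e α).map_source hx
  have e0 : jP P' x = (em P').par α ((an P').A.e α x) := ((em P').par_e hx).symm
  rw [e0] at hv h0
  rw [show XP P' = (em P').X from rfl, (em P').tan_eq hz] at hv
  obtain ⟨u, rfl⟩ := hv
  have hu : u = 0 := by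
    refine AnP.eq_zero_of_dv hx ((an P').sub α x hx) fun j => ?_
    obtain ⟨f, hf, hfg⟩ := h _ (y_mem ((an P').sub α x hx) j)
    obtain ⟨O, hO, Φ, h1, h2⟩ := (em P).exists_ext_at (isOpen_reg f) (smOn_ev (an P) f) hf
    have hO' : O ∈ 𝓝 (ambM μ ((em P').par α ((an P').A.e α x))) := by
      rw [← e0, ambM_j]; exact hO
    have d1 : DifferentiableAt ℝ Φ (ambM μ ((em P').par α ((an P').A.e α x))) :=
      (h1.contDiffAt hO').differentiableAt (by simp)
    have d2 : DifferentiableAt ℝ (ambM μ) ((em P').par α ((an P').A.e α x)) :=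
      (contDiff_ambM μ).differentiable (by simp) _
    have d3 := (em P').diff_par hz
    have c1 : ∀ᶠ y in 𝓝 x, jP P (μ.map y) ∈ O :=
      ((em P).cont.comp μ.continuous).continuousAt.eventually hO
    have c2 : ∀ᶠ y in 𝓝 x, f ∈ (lp (μ.map y)).O :=
      μ.continuous.continuousAt.eventually (eventually_mem hf)
    have h3 : (an P').rd α (ev (P'.y j / P'.y ((an P').r α))) =ᶠ[𝓝 ((an P').A.e α x)]
        Φ ∘ (ambM μ ∘ (em P').par α) := by
      filter_upwards [AnP.eventually_rd hx (c1.and c2)] with w hw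
      have e1 : ambM μ ((em P').par α w) = jP P (μ.map (((an P').A.e α).symm w)) := ambM_j μ _
      rw [Function.comp_apply, Function.comp_apply, e1, ← hfg]
      exact ((h2 _ hw.2.2.1).trans (μ.ev_map hw.2.2.2)).symm
    have h4 := (AnP.diffAt hx (y_mem ((an P').sub α x hx) j)).fderiv_restrictScalars ℝ
    rw [h3.fderiv_eq, fderiv_comp (((an P').A.e α) x) (f := ambM μ ∘ (em P').par α) d1
      (d2.comp _ d3), fderiv_comp _ d2 d3] at h4
    have h5 := congrArg (fun L : Cn (dim ℂ K) →L[ℝ] ℂ => L u) h4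
    simp only [ContinuousLinearMap.comp_apply] at h5
    rw [ContinuousLinearMap.coe_coe] at h0
    rw [h0, map_zero] at h5
    exact h5.symm
  rw [hu, map_zero]

theorem image_ambM (μ : Mor P' P) (S : Set (Pts P')) :
    ambM μ '' (jP P' '' S) = jP P '' (μ.map '' S) := by
  rw [image_image, image_image]
  exact image_congr fun x _ => ambM_j μ x

theorem image_XP (μ : Mor P' P) : ambM μ '' XP P' = jP P '' range μ.map := by
  rw [XP, ← image_univ, image_ambM, image_univ]

theorem par_of_isEmb {E B : SV} {i : Hom E B} (h : IsEmb i) :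
    Par (2 * E.dim) (XP E.P) (XP B.P) (ambM i) ∅ where
  clo := cloP E.P
  smap := smapM i
  injOn := by
    rintro _ ⟨⟨x, rfl⟩, -⟩ _ ⟨⟨y, rfl⟩, -⟩ e
    rw [ambM_j, ambM_j] at e
    rw [h.1 (jP_injective e)]
  imm := by
    rintro _ ⟨x, rfl⟩ - v hv h0
    exact imm_ambM i x (h.2 x) hv h0

/-- **supports** on projective models -/
theorem supP {A B V E : SV} (ν : Hom A V) (μ : Hom B V) {i : Hom E B} (hi : IsEmb i)
    (hs : ∀ y : B.Pt, μ.map y ∈ range ν.map → y ∈ range i.map) {τ : HP V.P}
    (hτ : ∀ z, pullH ν z = 0 → intP V.P (τ * z) = 0) {y : HP B.P} (hy : pullH i y = 0) :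
    intP B.P (y * pullH μ τ) = 0 := by
  refine sup_cls (cloP V.P) (oriP V.P) (even_two_mul _) (cloP A.P).compact (smapM ν) (cloP B.P)
    (oriP B.P) (smapM μ) (par_of_isEmb hi) ?_ hτ hy
  rintro _ ⟨y, rfl⟩ hy
  rw [ambM_j, image_XP, jP_injective.mem_set_image] at hy
  rw [image_XP, jP_injective.mem_set_image]
  exact hs y hy

section th

variable (typ : ∀ X : SV, ℕ → ℕ → Submodule ℂ (HP X.P))
  (c1 : ∀ X : SV, X277.BD ℂ X.F → HP X.P) (Lam : ∀ X : SV, AddSubgroup (HP X.P))

theorem pd_th : (thOf typ c1 Lam).PD := fun X =>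
  ⟨PD.finite_H (cloP X.P) (oriP X.P), fun _ h =>
    PD.nondeg_H (cloP X.P) (oriP X.P) (even_two_mul _) h⟩

/-- supports of push-forwards, one embedded member -/
theorem sup_emb {A B V E : SV} (ν : Hom A V) (μ : Hom B V) {i : Hom E B} (hi : IsEmb i)
    (hs : ∀ y : B.Pt, μ.map y ∈ range ν.map → y ∈ range i.map) (x : HP A.P) {y : HP B.P}
    (hy : pullH i y = 0) :
    intP B.P (y * pullH μ ((thOf typ c1 Lam).push ν x)) = 0 :=
  supP ν μ hi hs (fun z hz => ((pd_th typ c1 Lam).push_spec ν x z).trans (by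
    change intP A.P (x * pullH ν z) = 0
    rw [hz, mul_zero, map_zero])) hy

/-- **SUPD** -/
theorem supd : (thOf typ c1 Lam).SUPD := fun μ _ hi hs _ hy =>
  sup_emb typ c1 Lam _ μ hi hs 1 hy

end th

end Crest.Agent.X262.Van
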