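import Crest.Agent.X262.Van.Germ

/-!
# Row 262, package VAN (helper47): stratified vanishing

* `Low X K j` : closed forms of degree `> j` are exact near `K`;
* `Low.step`  : adding a submanifold of dimension `≤ j`;
* `Par`       : `ν : M → X` is an injective immersion outside the preimage of `K'`;
* `Par.sub`   : the image of that part is a submanifold;
* `Low.par`, `ExN.par` : the low and the top step for a parametrised stratum;
* `ExN.exists_rep` : a form exact near `K` is cohomologous to a form vanishing near `K`.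
-/

set_option autoImplicit false
set_option linter.unusedSectionVars false

open MeasureTheory Set Filter Topology Module
open scoped ContDiff
open Crest.Agent.R208 Crest.Agent.R208.F Crest.Agent.R208.FI Crest.Agent.R208.CW
open Crest.Agent.R208.T

noncomputable section

namespace Crest.Agent.X262.Van

variable {E : Type} [NormedAddCommGroup E] [NormedSpace ℝ E] [FiniteDimensional ℝ E]
  {E' : Type} [NormedAddCommGroup E'] [NormedSpace ℝ E'] [FiniteDimensional ℝ E']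
  {X S K K' : Set E} {M : Set E'} {ν : E' → E} {n m j p : ℕ} {a : E → Ext E}

/-- closed homogeneous forms of degree `> j` are exact near `K` -/
def Low (X K : Set E) (j : ℕ) : Prop :=
  ∀ p, j < p → ∀ a : E → Ext E, Hom p a → SmN X K a → ClN X K a → ExN X K a

theorem exN_empty : ExN X ∅ a :=
  ⟨0, SmN.zero, by simp only [EqN, nhdsSet_empty, eventually_bot]⟩

theorem low_empty : Low X ∅ j := fun _ _ _ _ _ _ => exN_empty

theorem Low.mono {j' : ℕ} (h : Low X K j) (hj : j ≤ j') : Low X K j' :=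
  fun p hp => h p (hj.trans_lt hp)

theorem rt_eq_zero_of_lt (hS : Sub m S) {x : E} (hx : x ∈ S) {c : Ext E} (hc : IsDeg p c)
    (hp : m < p) : rt S x c = 0 :=
  (hc.pb _).eq_zero (by rw [hS.finrank_Tan hx]; exact hp)

theorem ClN.sub_d {η : E → Ext E} (sa : SmN X K a) (ca : ClN X K a) (hη : Sm X η) :
    ClN X K (a - F.d η) :=
  ClN.sub sa (smN_of_sm hη.d) ca (d_d_eqN (smN_of_sm hη))

/-- adding a stratum of small dimension -/
theorem ExN.step (hX : Sub n X) (hS : Sub m S) (hSX : S ⊆ X) (hK : IsCompact K)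
    (hK' : IsCompact K') (hKS : K \ K' ⊆ S) (hm : m < p) (ha : Hom p a) (sa : SmN X K a)
    (ca : ClN X K a) (h : ExN X K' a) : ExN X K a := by
  obtain ⟨q, rfl⟩ : ∃ q, p = q + 1 := ⟨p - 1, by omega⟩
  obtain ⟨η, h1, h2, h3⟩ := h.exists_hom hK' ha
  refine ExN.add_d (smN_of_sm h1) (core hX hS hSX hK hK' hKS (sa.sub (smN_of_sm h1.d))
    (ca.sub_d sa h1) (eqN_sub_zero.2 h3) (Eventually.of_forall fun x hx => ?_))
  rw [rt_eq_zero_of_lt hS hx ((ha.sub h2.d) x) hm]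
  exact (map_zero _).symm

theorem Low.step (hX : Sub n X) (hS : Sub m S) (hSX : S ⊆ X) (hK : IsCompact K)
    (hK' : IsCompact K') (hKK : K' ⊆ K) (hKS : K \ K' ⊆ S) (hm : m ≤ j) (h : Low X K' j) :
    Low X K j := fun p hp a ha sa ca =>
  ExN.step hX hS hSX hK hK' hKS (hm.trans_lt hp) ha sa ca (h p hp a ha (sa.mono hKK) (ca.mono hKK))

/-- a compact subset of a submanifold -/
theorem Low.of_sub (hX : Sub n X) (hS : Sub m S) (hSX : S ⊆ X) (hK : IsCompact K) (hKS : K ⊆ S) :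
    Low X K m :=
  Low.step hX hS hSX hK isCompact_empty (empty_subset _) (sdiff_subset.trans hKS) le_rfl low_empty

theorem sub_singleton (x : E) : Sub 0 ({x} : Set E) := by
  refine Sub.of_loc' fun y hy => ⟨fun _ => x, univ, univ, fun _ => 0, ⟨isOpen_univ, isOpen_univ,
    contDiffOn_const, contDiffOn_const, ?_, fun w _ => Subsingleton.elim _ _,
    fun _ _ => mem_univ _⟩, mem_univ _⟩
  rw [inter_univ]
  exact Nonempty.image_const univ_nonempty x

/-- adding finitely many points -/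
theorem Low.union_finite (hX : Sub n X) (hK : IsCompact K) (h : Low X K j) {T : Set E}
    (hT : T.Finite) (hTX : T ⊆ X) : Low X (K ∪ T) j := by
  induction T, hT using Set.Finite.induction_on with
  | empty => rwa [union_empty]
  | @insert x T _ hT ih =>
    refine Low.step hX (sub_singleton x) (singleton_subset_iff.2 (hTX (mem_insert _ _)))
      (hK.union (hT.insert x).isCompact) (hK.union hT.isCompact)
      (union_subset_union_right _ (subset_insert _ _)) ?_ (Nat.zero_le _)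
      (ih ((subset_insert _ _).trans hTX))
    rintro y ⟨hy | hy | hy, hy'⟩
    · exact (hy' (Or.inl hy)).elim
    · exact hy
    · exact (hy' (Or.inr hy)).elim

theorem low_finite (hX : Sub n X) {T : Set E} (hT : T.Finite) (hTX : T ⊆ X) : Low X T j := by
  have := (low_empty (X := X) (j := j)).union_finite hX isCompact_empty hT hTX
  rwa [empty_union] at this

/-- `ν` maps the closed manifold `M` to `X`; outside the preimage of `K'` it is an injective
immersion -/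
structure Par (m : ℕ) (M : Set E') (X : Set E) (ν : E' → E) (K' : Set E) : Prop where
  clo : Clo m M
  smap : SMap M X ν
  injOn : InjOn ν (M \ ν ⁻¹' K')
  imm : ∀ y ∈ M, ν y ∉ K' → ∀ v ∈ Tan M y, fderiv ℝ ν y v = 0 → v = 0

namespace Par

theorem cont (h : Par m M X ν K') : ContinuousOn ν M := fun y hy =>
  (h.smap.smooth y hy).continuousAt.continuousWithinAt

theorem isCompact_image (h : Par m M X ν K') : IsCompact (ν '' M) :=
  h.clo.compact.image_of_continuousOn h.cont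

theorem isCompact_pre (h : Par m M X ν K') (hK' : IsClosed K') : IsCompact (M ∩ ν ⁻¹' K') :=
  h.clo.compact.of_isClosed_subset
    (h.cont.preimage_isClosed_of_isClosed h.clo.compact.isClosed hK') inter_subset_left

theorem exists_chart (h : Par m M X ν K') (hK' : IsClosed K') {y : E'} (hy : y ∈ M)
    (hyK : ν y ∉ K') : ∃ (f : Eu m → E') (V : Set (Eu m)) (u : Eu m), u ∈ V ∧ f u = y ∧
      Chart m M f V ∧ (∀ w ∈ V, ν (f w) ∉ K') ∧
      Chart m (ν '' (M \ ν ⁻¹' K')) (fun w => ν (f w)) V := by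
  obtain ⟨f, V₀, hf₀, u, hu, rfl⟩ := h.clo.chart y hy
  have c0 : ∀ w ∈ V₀, ContDiffAt ℝ ∞ (fun w => ν (f w)) w := fun w hw =>
    (h.smap.smooth _ (hf₀.mem hw)).comp w (hf₀.contDiffAt hw)
  have c1 : ContinuousOn (fun w => ν (f w)) V₀ := fun w hw =>
    (c0 w hw).continuousAt.continuousWithinAt
  set V := V₀ ∩ (fun w => ν (f w)) ⁻¹' K'ᶜ with hV
  have hVo : IsOpen V := c1.isOpen_inter_preimage hf₀.isOpen hK'.isOpen_compl
  have hf : Chart m M f V := hf₀.mono inter_subset_left hVo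
  have hmem : ∀ w ∈ V, f w ∈ M \ ν ⁻¹' K' := fun w hw => ⟨hf.mem hw, hw.2⟩
  refine ⟨f, V, u, ⟨hu, hyK⟩, rfl, hf, fun w hw => hw.2, hVo,
    fun w hw => (c0 w hw.1).contDiffWithinAt,
    fun w hw w' hw' e => hf.injOn hw hw' (h.injOn (hmem w hw) (hmem w' hw') e), ?_, ?_⟩
  · intro w hw
    have h1 : fderiv ℝ (fun w => ν (f w)) w = (fderiv ℝ ν (f w)).comp (fderiv ℝ f w) :=
      fderiv_comp w (h.smap.diff (hf.mem hw)) (hf.differentiableAt hw)
    rw [h1, injective_iff_map_eq_zero]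
    intro v hv
    have h2 := h.imm _ (hf.mem hw) hw.2 _ (hf.fderiv_mem hw v) hv
    exact (injective_iff_map_eq_zero _).1 (hf.inj w hw) v h2
  · intro W hW hWo
    obtain ⟨U, hU, hUW⟩ := hf.image_open W hW hWo
    have c2 : IsCompact (ν '' (M \ U)) :=
      (h.clo.compact.diff hU).image_of_continuousOn (h.cont.mono sdiff_subset)
    refine ⟨(ν '' (M \ U))ᶜ, c2.isClosed.isOpen_compl, Subset.antisymm ?_ ?_⟩
    · rintro _ ⟨w, hw, rfl⟩
      refine ⟨⟨f w, hmem w (hW hw), rfl⟩, ?_⟩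
      rintro ⟨z, hz, e⟩
      have h1 : z ∈ M \ ν ⁻¹' K' := ⟨hz.1, by rw [mem_preimage, e]; exact (hW hw).2⟩
      have h2 : z = f w := h.injOn h1 (hmem w (hW hw)) e
      have h3 : f w ∈ M ∩ U := by rw [← hUW]; exact ⟨w, hw, rfl⟩
      exact hz.2 (h2 ▸ h3.2)
    · rintro _ ⟨⟨z, hz, rfl⟩, hz2⟩
      have h1 : z ∈ U := by
        by_contra h1
        exact hz2 ⟨z, ⟨hz.1, h1⟩, rfl⟩
      have h2 : z ∈ f '' W := by rw [hUW]; exact ⟨hz.1, h1⟩
      obtain ⟨w, hw, rfl⟩ := h2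
      exact ⟨w, hw, rfl⟩

theorem sub (h : Par m M X ν K') (hK' : IsClosed K') : Sub m (ν '' (M \ ν ⁻¹' K')) := by
  rintro _ ⟨y, hy, rfl⟩
  obtain ⟨f, V, u, hu, rfl, -, -, hc⟩ := h.exists_chart hK' hy.1 hy.2
  exact ⟨_, V, hc, u, hu, rfl⟩

theorem image_subset (h : Par m M X ν K') : ν '' (M \ ν ⁻¹' K') ⊆ X := by
  rintro _ ⟨y, hy, rfl⟩
  exact h.smap.maps hy.1

theorem diff_subset (K' : Set E) : (K' ∪ ν '' M) \ K' ⊆ ν '' (M \ ν ⁻¹' K') := by
  rintro x ⟨hx | ⟨y, hy, rfl⟩, hx'⟩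
  · exact (hx' hx).elim
  · exact ⟨y, ⟨hy, hx'⟩, rfl⟩

/-- a form vanishes on the stratum if its pull-back vanishes -/
theorem rt_eq_zero (h : Par m M X ν K') (hK' : IsClosed K') {y : E'} (hy : y ∈ M) (hyK : ν y ∉ K')
    {w : E → Ext E} (hw : rt M y (F.pull ν w y) = 0) :
    rt (ν '' (M \ ν ⁻¹' K')) (ν y) (w (ν y)) = 0 := by
  obtain ⟨f, V, u, hu, rfl, hf, -, hc⟩ := h.exists_chart hK' hy hyK
  refine (res_chart hc hu _).2 ?_
  have h1 := (res_chart hf hu _).1 hw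
  have h2 : fderiv ℝ (fun w => ν (f w)) u = (fderiv ℝ ν (f u)).comp (fderiv ℝ f u) :=
    fderiv_comp u (h.smap.diff hy) (hf.differentiableAt hu)
  rw [F.pull, pb_comp] at h1
  rw [h2]
  exact h1

/-- local smooth inverses -/
theorem exists_inv (h : Par m M X ν K') (hK' : IsClosed K') {y : E'} (hy : y ∈ M)
    (hyK : ν y ∉ K') : ∃ (O : Set E) (σ : E → E'), IsOpen O ∧ ν y ∈ O ∧ Disjoint O K' ∧
      (∀ q ∈ O, ContDiffAt ℝ ∞ σ q ∧ σ q ∈ M) ∧ ∀ z ∈ M, ν z ∈ O → σ (ν z) = z := by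
  obtain ⟨f, V, u, hu, rfl, hf, hV, hc⟩ := h.exists_chart hK' hy hyK
  obtain ⟨W, O, ℓ, hL, hO, -, hWV⟩ := hc.exists_loc hu
  refine ⟨O ∩ K'ᶜ, fun q => f (ℓ q), hL.oO.inter hK'.isOpen_compl, ⟨hO, hyK⟩,
    Set.disjoint_left.2 fun q hq => hq.2, fun q hq => ⟨?_, hf.mem (hWV (hL.maps q hq.1))⟩,
    fun z hz hzO => ?_⟩
  · exact (hf.contDiffAt (hWV (hL.maps q hq.1))).comp q (hL.lC' hq.1)
  · have h1 : ν (f (ℓ (ν z))) = ν z := hL.right_inv ⟨z, ⟨hz, hzO.2⟩, rfl⟩ hzO.1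
    have h2 := hWV (hL.maps _ hzO.1)
    exact h.injOn ⟨hf.mem h2, hV _ h2⟩ ⟨hz, hzO.2⟩ h1

/-- push-forward of a form which vanishes near the preimage of `K'` -/
theorem exists_push (h : Par m M X ν K') (hK' : IsClosed K') {θ₁ : E' → Ext E'} (hθ : Sm M θ₁)
    (h0 : EqN M (M ∩ ν ⁻¹' K') θ₁ 0) :
    ∃ θ : E → Ext E, ContDiff ℝ ∞ θ ∧ (∀ x ∈ K', ∀ᶠ y in 𝓝 x, θ y = 0) ∧
      Eqv M (F.pull ν θ) θ₁ := by
  obtain ⟨N, hN, hDN, hp⟩ := exists_open h0
  have hC : IsCompact (ν '' (M \ N)) :=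
    (h.clo.compact.diff hN).image_of_continuousOn (h.cont.mono sdiff_subset)
  have key : ∃ (θ : E → Ext E) (c : E → ℝ), ContDiff ℝ ∞ θ ∧ ContDiff ℝ ∞ c ∧
      (∀ x ∈ K', ∀ᶠ y in 𝓝 x, θ y = 0) ∧
      (∀ z ∈ M, rt M z (F.pull ν θ z) = c (ν z) • rt M z (θ₁ z)) ∧
      ∀ x ∈ ν '' (M \ N), c x = 1 := by
    refine hC.induction_on (p := fun T => ∃ (θ : E → Ext E) (c : E → ℝ), ContDiff ℝ ∞ θ ∧
      ContDiff ℝ ∞ c ∧ (∀ x ∈ K', ∀ᶠ y in 𝓝 x, θ y = 0) ∧
      (∀ z ∈ M, rt M z (F.pull ν θ z) = c (ν z) • rt M z (θ₁ z)) ∧ ∀ x ∈ T, c x = 1) ?_ ?_ ?_ ?_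
    · refine ⟨0, 0, contDiff_const, contDiff_const, fun x _ => Eventually.of_forall fun _ => rfl,
        fun z _ => ?_, fun x hx => hx.elim⟩
      rw [pull_zero', Pi.zero_apply, Pi.zero_apply, map_zero, zero_smul]
    · rintro s t hst ⟨θ, c, h1, h2, h3, h4, h5⟩
      exact ⟨θ, c, h1, h2, h3, h4, fun x hx => h5 x (hst hx)⟩
    · rintro s t ⟨θ, c, h1, h2, h3, h4, h5⟩ ⟨θ', c', h1', h2', h3', h4', h5'⟩
      refine ⟨fun x => θ x + (1 - c x) • θ' x, fun x => c x + (1 - c x) * c' x,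
        h1.add ((contDiff_const.sub h2).smul h1'), h2.add ((contDiff_const.sub h2).mul h2'),
        fun x hx => ?_, fun z hz => ?_, fun x hx => ?_⟩
      · filter_upwards [h3 x hx, h3' x hx] with y e1 e2
        rw [e1, e2, smul_zero, add_zero]
      · rw [F.pull_add, F.pull_smul ν (fun x => 1 - c x) θ', map_add, map_smul, h4 z hz, h4' z hz,
          smul_smul, ← add_smul]
      · show c x + (1 - c x) * c' x = 1
        rcases hx with hx | hx
        · rw [h5 x hx]; ring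
        · rw [h5' x hx]; ring
    · rintro _ ⟨y, hy, rfl⟩
      have hyK : ν y ∉ K' := fun hh => hy.2 (hDN ⟨hy.1, hh⟩)
      obtain ⟨O, σ, hO, hyO, hOK, hσ, hσν⟩ := h.exists_inv hK' hy.1 hyK
      obtain ⟨χ, hχ, c0, c1, -⟩ := GP.exists_cut (K₁ := Oᶜ) (K₂ := {ν y}) hO.isClosed_compl
        isClosed_singleton (Set.disjoint_left.2 fun x hx hx' => hx (by rw [hx']; exact hyO))
      refine ⟨{x | χ x = 1}, mem_nhdsWithin_of_mem_nhds (c1 _ rfl),
        fun x => χ x • F.pull σ θ₁ x, χ, ?_, hχ, fun x hx => ?_, fun z hz => ?_, fun x hx => hx⟩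
      · have h1 : Sm univ (fun x => χ x • F.pull σ θ₁ x) :=
          GP.sm_cut hχ (fun x _ hxO => c0 x hxO) (U := O) fun x hx =>
            contDiffAt_pull (hσ x hx.2).1 (by simp) (hθ _ (hσ x hx.2).2)
        exact contDiff_iff_contDiffAt.2 fun x => h1 x (mem_univ x)
      · filter_upwards [c0 x (Set.disjoint_right.1 hOK hx)] with q hq
        rw [hq, zero_smul]
      · rw [F.pull_smul ν χ (F.pull σ θ₁), map_smul]
        by_cases hzO : ν z ∈ O
        · congr 1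
          have hσd : DifferentiableAt ℝ σ (ν z) := (hσ _ hzO).1.differentiableAt (by simp)
          rw [F.pull_comp (h.smap.diff hz) hσd]
          obtain ⟨U, hU, hUM⟩ := (continuousOn_iff'.1 h.cont) O hO
          have hzU : z ∈ U := by
            have : z ∈ U ∩ M := by rw [← hUM]; exact ⟨hzO, hz⟩
            exact this.1
          have hin : ∀ w ∈ M ∩ U, ν w ∈ O := by
            intro w hw
            have : w ∈ ν ⁻¹' O ∩ M := by rw [hUM]; exact ⟨hw.2, hw.1⟩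
            exact this.1
          have h2 := eqv_pull_of_eq (X := M ∩ U) (f := σ ∘ ν) (g := fun w => w) θ₁
            (fun w hw => ((hσ _ (hin w hw)).1.differentiableAt (by simp)).comp w (h.smap.diff hw.1))
            (fun w _ => differentiableAt_id) (fun w hw => hσν w hw.1 (hin w hw))
          rw [(eqv_inter_iff hU).1 h2 z hz hzU, F.pull_id]
        · rw [(c0 _ hzO).self_of_nhds, zero_smul, zero_smul]
  obtain ⟨θ, c, h1, -, h3, h4, h5⟩ := key
  refine ⟨θ, h1, h3, eqv_iff.2 fun z hz => ?_⟩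
  have h6 := h4 z hz
  by_cases hzN : z ∈ N
  · have h7 := hp z hzN hz
    rw [Pi.zero_apply, map_zero] at h7
    rw [h7, smul_zero] at h6
    exact h6.trans h7.symm
  · rw [h5 _ ⟨z, ⟨hz, hzN⟩, rfl⟩, one_smul] at h6
    exact h6

/-- germs pull back -/
theorem eventually_pre (h : Par m M X ν K') {q : E → Prop} (hq : ∀ᶠ x in 𝓝ˢ K', q x) :
    ∀ᶠ y in 𝓝ˢ (M ∩ ν ⁻¹' K'), q (ν y) :=
  eventually_nhdsSet_iff_forall.2 fun y hy =>
    (h.smap.smooth y hy.1).continuousAt.eventually (eventually_nhdsSet_iff_forall.1 hq _ hy.2)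

end Par

/-- **low step** for a parametrised stratum -/
theorem Low.par (hX : Sub n X) (hK' : IsCompact K') (h : Par m M X ν K') (hm : m ≤ j)
    (hL : Low X K' j) : Low X (K' ∪ ν '' M) j :=
  Low.step hX (h.sub hK'.isClosed) h.image_subset (hK'.union h.isCompact_image) hK'
    subset_union_left (Par.diff_subset K') hm hL

theorem ExN.par_low (hX : Sub n X) (hK' : IsCompact K') (h : Par m M X ν K') (hm : m < p)
    (ha : Hom p a) (sa : SmN X (K' ∪ ν '' M) a) (ca : ClN X (K' ∪ ν '' M) a) (he : ExN X K' a) :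
    ExN X (K' ∪ ν '' M) a :=
  ExN.step hX (h.sub hK'.isClosed) h.image_subset (hK'.union h.isCompact_image) hK'
    (Par.diff_subset K') hm ha sa ca he

/-- **top step**: the pull-back to the parameter manifold is exact -/
theorem ExN.par (hX : Sub n X) (hK' : IsCompact K') (h : Par m M X ν K')
    (hL : Low M (M ∩ ν ⁻¹' K') j) (hp : j + 1 < p) (ha : Hom p a)
    (sa : SmN X (K' ∪ ν '' M) a) (ca : ClN X (K' ∪ ν '' M) a) (he : ExN X K' a)
    (hM : Coh M (F.pull ν a) 0) : ExN X (K' ∪ ν '' M) a := by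
  obtain ⟨q, rfl⟩ : ∃ q, p = q + 2 := ⟨p - 2, by omega⟩
  have hD := h.isCompact_pre hK'.isClosed
  obtain ⟨η, h1, h2, h3⟩ := he.exists_hom hK' ha
  set a₁ := a - F.d η with ha₁
  have z1 : EqN X K' a₁ 0 := eqN_sub_zero.2 h3
  have s1 : SmN X (K' ∪ ν '' M) a₁ := sa.sub (smN_of_sm h1.d)
  have c1 : ClN X (K' ∪ ν '' M) a₁ := ca.sub_d sa h1
  have hom1 : Hom (q + 2) a₁ := ha.sub h2.d
  -- a primitive on `M`
  have hM1 : Coh M (F.pull ν a₁) 0 := by
    have e1 : Coh M (F.pull ν (F.d η)) 0 :=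
      ⟨F.pull ν η, h1.pull h.smap, by rw [sub_zero]; exact (d_pull_eqv h.smap h1).symm⟩
    have := hM.sub e1
    rwa [sub_zero, ← pull_sub'] at this
  obtain ⟨θ₀, t1, t2, t3⟩ : ∃ θ₀ : E' → Ext E', Sm M θ₀ ∧ Hom (q + 1) θ₀ ∧
      Eqv M (F.pull ν a₁) (F.d θ₀) := by
    obtain ⟨ξ, e1, e2⟩ := hM1
    rw [sub_zero] at e2
    refine ⟨T.dp (q + 1) ξ, e1.dp _, hom_dp _ ξ, ?_⟩
    have e3 := (e2.dp (q + 2)).trans (Eqv.of_eq fun x hx => dp_d (q + 1) (e1.diff hx))
    rwa [hom1.pull.dp_eq] at e3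
  have z2 : EqN M (M ∩ ν ⁻¹' K') (F.pull ν a₁) 0 := by
    filter_upwards [h.eventually_pre z1] with y hy hyM
    have e1 := hy (h.smap.maps hyM)
    rw [Pi.zero_apply, map_zero] at e1
    rw [Pi.zero_apply, map_zero]
    exact pb_pull_eq_zero (h.smap.diff hyM) h.smap.maps e1
  have c2 : ClN M (M ∩ ν ⁻¹' K') θ₀ := (eqN_of_eqv t3).symm.trans z2
  obtain ⟨ζ, u1, u2⟩ := (hL (q + 1) (by omega) θ₀ t2 (smN_of_sm t1) c2).exists_global hD
  obtain ⟨θ, v1, v2, v3⟩ := h.exists_push hK'.isClosed (t1.sub u1.d) (eqN_sub_zero.2 u2)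
  have sθ : Sm X θ := fun x _ => v1.contDiffAt
  have w1 : Eqv M (F.pull ν (a₁ - F.d θ)) 0 := by
    have e1 : Eqv M (F.pull ν (F.d θ)) (F.d θ₀) := by
      have e2 := (d_pull_eqv h.smap sθ).symm.trans
        (v3.d h.clo.sub (sθ.pull h.smap) (t1.sub u1.d))
      have e3 := (d_sub_eqv t1 u1.d).trans ((Eqv.refl (F.d θ₀)).sub (resZero_iff.1 (d_d' u1)))
      rw [sub_zero] at e3
      exact e2.trans e3
    have := t3.sub e1
    rwa [sub_self, ← pull_sub'] at this
  refine ExN.add_d (smN_of_sm h1) (ExN.add_d (smN_of_sm sθ) (core hX (h.sub hK'.isClosed)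
    h.image_subset (hK'.union h.isCompact_image) hK' (Par.diff_subset K')
    (s1.sub (smN_of_sm sθ.d)) (c1.sub_d s1 sθ) ?_ (Eventually.of_forall ?_)))
  · have e1 : EqN X K' (F.d θ) 0 := by
      refine eventually_nhdsSet_iff_forall.2 fun x hx => ?_
      filter_upwards [(v2 x hx).eventually_nhds] with y hy _
      have e2 : θ =ᶠ[𝓝 y] fun _ => 0 := hy
      rw [F.d_congr e2, F.d_const]
      rfl
    have := z1.sub e1
    rwa [sub_zero] at this
  · rintro _ ⟨y, hy, rfl⟩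
    have e1 := eqv_iff.1 w1 y hy.1
    rw [Pi.zero_apply, map_zero] at e1
    rw [h.rt_eq_zero hK'.isClosed hy.1 hy.2 e1]
    exact (map_zero _).symm

/-- a form which is exact near `K` is cohomologous to a form vanishing identically near `K` -/
theorem ExN.exists_rep (hX : Sub n X) (hK : IsCompact K) (ha : Hom (p + 1) a) (sa : Sm X a)
    (ca : Cl X a) (h : ExN X K a) :
    ∃ a' : E → Ext E, Sm X a' ∧ Cl X a' ∧ Hom (p + 1) a' ∧ Coh X a a' ∧
      ∀ᶠ x in 𝓝ˢ K, a' x = 0 := by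
  obtain ⟨η, h1, h2, h3⟩ := h.exists_hom hK ha
  obtain ⟨U, hU, hKU, hp⟩ := exists_open (eqN_sub_zero.2 h3)
  obtain ⟨χ, hχ, c0, c1, -⟩ := GP.exists_cut (K₁ := K) (K₂ := Uᶜ) hK.isClosed hU.isClosed_compl
    (Set.disjoint_left.2 fun x hx hx' => hx' (hKU hx))
  have s1 : Sm X (a - F.d η) := sa.sub h1.d
  have s2 : Sm X (fun x => χ x • (a - F.d η) x) := fun x hx => hχ.contDiffAt.smul (s1 x hx)
  have e1 : Eqv X (fun x => χ x • (a - F.d η) x) (a - F.d η) := by
    refine eqv_iff.2 fun x hx => ?_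
    by_cases hxU : x ∈ U
    · have e2 := hp x hxU hx
      rw [Pi.zero_apply, map_zero] at e2
      rw [map_smul]
      change χ x • rt X x _ = rt X x _
      rw [e2, smul_zero]
    · rw [(c1 x hxU).self_of_nhds, one_smul]
  refine ⟨fun x => χ x • (a - F.d η) x, s2, Cl.of_eqv hX s2 s1 e1 (Cl.sub sa h1.d ca (d_d' h1)),
    fun x => ((ha.sub h2.d) x).smul _, ⟨η, h1, ?_⟩, ?_⟩
  · have := (Eqv.refl (X := X) a).sub e1
    rwa [sub_sub_cancel] at this
  · refine eventually_nhdsSet_iff_forall.2 fun x hx => ?_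
    filter_upwards [c0 x hx] with y hy
    rw [hy, zero_smul]

end Crest.Agent.X262.Van
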