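import Crest.Agent.X262.Van.SupP
import Crest.Agent.X262.PL.Hol
import Crest.Agent.X262.PL.Gys
import Crest.Agent.X262.Form88.Snc

/-!
# Row 262, package VAN (helper47): smooth divisors of projective models as real divisors

* `AmbAt z f x` : the ambient function `z` induces the rational function `f` near `x`;
* `dvP`   : a closed embedding is a `PL.Dv`;
* `lEqP`  : a local generator of the ideal of a smooth divisor is a positive local equation.
-/

set_option autoImplicit false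
set_option linter.unusedSectionVars false

open Set Filter Topology Module
open scoped ContDiff
open Crest.Agent.R208 Crest.Agent.R208.F Crest.Agent.R208.FI Crest.Agent.R208.CW
open Crest.Agent.R208.T

noncomputable section

namespace Crest.Agent.X262.Van

open Crest.Agent.X262.Man Crest.Agent.X262.Coh
open Crest.Agent.X277 Crest.Agent.X277.Lef Crest.Agent.X277.AN.G1 Crest.Agent.X277.BD.Br
open Crest.Agent.R275.Geo (Cn)
open Crest.Agent.X277.BD (dim)

variable {F K : Type} [Field F] [Algebra ℂ F] [Field K] [Algebra ℂ K] {P : PModel ℂ F}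
  {P' : PModel ℂ K} {n : ℕ}

/-- the ambient function `z` induces the rational function `f` near `x` -/
def AmbAt (z : Hm P.N → ℂ) (f : F) (x : Pts P) : Prop :=
  ∀ᶠ y in 𝓝 x, ContDiffAt ℝ ∞ z (jP P y) ∧ z (jP P y) = ev f y

theorem exists_amb (f : F) : ∃ z : Hm P.N → ℂ, ∀ x : Pts P, f ∈ (lp x).O → AmbAt z f x := by
  obtain ⟨g, h1, h2⟩ := (em P).exists_ext_on (isOpen_reg f) (smOn_ev (an P) f)
  exact ⟨g, fun x hx => (eventually_mem hx).mono fun y hy =>
    ⟨h1 _ ((em P).mem_op.2 hy), h2 y hy⟩⟩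

theorem cori_any (A : AnP P n) : (emb A).COri (em P).ori := by
  obtain rfl := dim_eq A
  exact cori_emb (em P).cori

theorem clo_of_eq {k : ℕ} (h : 2 * dim ℂ F = k) : Clo k (XP P) := h ▸ cloP P

theorem ori_of_eq {k : ℕ} (h : 2 * dim ℂ F = k) : Ori k (XP P) (em P).ori := h ▸ oriP P

theorem intP_eq_integ {k : ℕ} (h : 2 * dim ℂ F = k) (hX : Clo k (XP P))
    (ho : Ori k (XP P) (em P).ori) : intP P = integ hX ho := by
  subst h
  rfl

variable {D X : SV} {j : Hom D X} {a : BD ℂ X.F}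

theorem dvP (h : IsEmb j) : PL.Dv (2 * D.dim) (XP X.P) (XP D.P) (em D.P).ori (ambM j) :=
  have h1 := par_of_isEmb h
  ⟨h1.clo, oriP D.P, h1.smap, fun _ hy _ hy' => h1.injOn ⟨hy, fun h => h⟩ ⟨hy', fun h => h⟩,
    fun y hy => h1.imm y hy fun h => h⟩

theorem dim_dv (h : IsDv j a) : 2 * X.dim = 2 * D.dim + 2 := by
  have := h.dim_eq
  omega

theorem mem_image_XP {x : X.Pt} : jP X.P x ∈ ambM j '' XP D.P ↔ x ∈ range j.map := by
  rw [image_XP, jP_injective.mem_set_image]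

theorem gen_mem (h : IsDv j a) {x : X.Pt} {t : X.F} (ht : At a x t⁻¹) : t ∈ (lp x).O := by
  simpa using (at_zero x).div_mem_of_le ht h.nonneg

theorem gen_zero_iff (h : IsDv j a) {x : X.Pt} {t : X.F} (ht : At a x t⁻¹) :
    ev t x = 0 ↔ x ∈ range j.map := by
  constructor
  · intro h0
    by_contra hx
    exact (h.off x hx).ev_div_ne ht (by simpa using h0)
  · rintro ⟨y, rfl⟩
    obtain ⟨s, h1, h2, h3⟩ := h.eqn y
    have hs : s ≠ 0 := fun h0 => h2.ne (by rw [h0, inv_zero])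
    have h4 : t / s ∈ (lp (j.map y)).O := by
      have := LP.mem_of_ne (h2.ev_div_ne ht)
      rwa [div_inv_eq_mul, mul_comm, ← div_eq_mul_inv] at this
    rw [j.ev_map (gen_mem h ht), (h3 t (gen_mem h ht)).2 h4]
    exact LP.v_zero _

/-- the differential of a local equation does not vanish -/
theorem exists_dv_ne (h : IsDv j a) (A : AnP X.P (D.dim + 1)) {y : D.Pt} {α : A.A.ι}
    (hx : j.map y ∈ (A.A.e α).source) {t : X.F} (ht : At a (j.map y) t⁻¹) :
    ∃ w, A.dv α (j.map y) w t ≠ 0 := by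
  by_contra hcon
  push Not at hcon
  obtain ⟨s, h1, h2, h3⟩ := h.eqn y
  have ht0 : t ≠ 0 := fun h0 => ht.ne (by rw [h0, inv_zero])
  have hst : s / t ∈ (lp (j.map y)).O := by
    have := LP.mem_of_ne (ht.ev_div_ne h2)
    rwa [div_inv_eq_mul, mul_comm, ← div_eq_mul_inv] at this
  have hs0 : s ≠ 0 := fun h0 => h2.ne (by rw [h0, inv_zero])
  have k1 : ∀ w, ∀ f ∈ (lp (j.map y)).O, j.p.π f = 0 → A.dv α (j.map y) w f = 0 := by
    intro w f hf h0
    have e1 : f = (f / s * (s / t)) * t := by field_simp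
    rw [e1, AnP.dv_mul hx w (mul_mem ((h3 f hf).1 h0) hst) (gen_mem h ht), hcon w,
      (gen_zero_iff h ht).2 ⟨y, rfl⟩, mul_zero, zero_mul, add_zero]
  obtain ⟨β, hy⟩ := (an D.P).A.cover y
  have hc := (an D.P).crd β y hy
  choose f hf hfz using fun l => h.emb.2 y _ (hc.mem l)
  let Λ : Cn (D.dim + 1) →ₗ[ℂ] (Fin D.dim → ℂ) := LinearMap.pi fun l =>
    (fderiv ℂ (A.rd α (ev (f l))) (A.A.e α (j.map y)) : Cn (D.dim + 1) →ₗ[ℂ] ℂ)
  obtain ⟨w, hw, hw0⟩ := (Submodule.ne_bot_iff _).1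
    (LinearMap.ker_ne_bot_of_finrank_lt (f := Λ) (by simp))
  have k2 : ∀ l, A.dv α (j.map y) w (f l) = 0 := fun l => congrFun (LinearMap.mem_ker.1 hw) l
  refine hw0 (AnP.eq_zero_of_dv hx (A.sub α _ hx) fun i => ?_)
  set g := X.P.y i / X.P.y (A.r α) with hg
  have hgO : g ∈ (lp (j.map y)).O := y_mem (A.sub α _ hx) i
  obtain ⟨c, hc1, hc2⟩ := hc.gen _ (j.π_mem hgO)
  choose c' hc' hcc using fun l => h.emb.2 y _ (hc1 l)
  have m1 : ∀ l, f l - algebraMap ℂ X.F (ev (f l) (j.map y)) ∈ (lp (j.map y)).O := fun l =>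
    sub_mem (hf l) (algebraMap_mem _ _)
  have m2 : ∑ l, c' l * (f l - algebraMap ℂ X.F (ev (f l) (j.map y))) ∈ (lp (j.map y)).O :=
    sum_mem fun l _ => mul_mem (hc' l) (m1 l)
  set r := algebraMap ℂ X.F ((lp y).v (j.p.π g)) +
    ∑ l, c' l * (f l - algebraMap ℂ X.F (ev (f l) (j.map y))) with hr
  have m3 : r ∈ (lp (j.map y)).O := add_mem (algebraMap_mem _ _) m2
  have e1 : j.p.π r = j.p.π g := by
    have e2 : j.p.π (∑ l, c' l * (f l - algebraMap ℂ X.F (ev (f l) (j.map y)))) =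
        ∑ l, j.p.π (c' l * (f l - algebraMap ℂ X.F (ev (f l) (j.map y)))) := by
      have := map_sum j.p.hom (fun l => (⟨_, j.mem_O (mul_mem (hc' l) (m1 l))⟩ : j.p.O))
        Finset.univ
      simp only [Plc.hom_apply, AddSubmonoidClass.coe_finsetSum] at this
      exact this
    rw [hr, j.p.π_add (algebraMap_mem _ _) (j.mem_O m2), j.p.π_alg, e2]
    conv_rhs => rw [hc2]
    congr 1
    refine Finset.sum_congr rfl fun l _ => ?_
    rw [j.p.π_mul (j.mem_O (hc' l)) (j.mem_O (m1 l)), hcc,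
      Plc.π_sub (j.mem_O (hf l)) (algebraMap_mem _ _), j.p.π_alg, j.ev_map (hf l), hfz]
  have e3 := k1 w (g - r) (sub_mem hgO m3) (by
    rw [Plc.π_sub (j.mem_O hgO) (j.mem_O m3), e1, sub_self])
  have e4 : A.dv α (j.map y) w r = 0 := by
    rw [hr, AnP.dv_add hx w (algebraMap_mem _ _) m2, AnP.dv_alg, zero_add,
      AnP.dv_sum hx w _ fun l _ => mul_mem (hc' l) (m1 l)]
    refine Finset.sum_eq_zero fun l _ => ?_
    have e5 : ev (f l - algebraMap ℂ X.F (ev (f l) (j.map y))) (j.map y) = 0 := by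
      unfold ev
      rw [LP.v_sub (hf l) (algebraMap_mem _ _), LP.v_alg, sub_self]
    rw [AnP.dv_mul hx w (hc' l) (m1 l), e5, zero_mul, add_zero, AnP.dv_sub_alg hx w (hf l), k2,
      mul_zero]
  have e6 := AnP.dv_add hx w (sub_mem hgO m3) m3
  rwa [sub_add_cancel, e3, e4, add_zero] at e6

theorem imm_rd {m : ℕ} (h : IsEmb j) (B : AnP D.P m) (A : AnP X.P n) (y : D.Pt) (k : B.A.ι)
    (i : A.A.ι) (hk : y ∈ (B.A.e k).source) (hi : j.map y ∈ (A.A.e i).source) :
    Function.Injective (fderiv ℂ (R273.Map_835.rd B.A A.A j.map k i) (B.A.e k y)) := by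
  refine (injective_iff_map_eq_zero _).2 fun w hw => ?_
  have h1 := PL.fderiv_amb (emb A) (emb B) (j.holMap B A) (ambM_j j)
    ((contDiff_ambM j).differentiable (by simp) _) hk hi w
  rw [hw, map_zero] at h1
  have hk' := (B.A.e k).map_source hk
  have h2 : fderiv ℝ ((emb B).par k) (B.A.e k y) w ∈ Tan (XP D.P) (jP D.P y) := by
    rw [show jP D.P y = (emb B).par k (B.A.e k y) from ((emb B).par_e hk).symm,
      show XP D.P = (emb B).X from rfl, (emb B).tan_eq hk']
    exact ⟨w, rfl⟩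
  exact (emb B).imm k _ hk' ((imm_ambM j y (h.2 y) h2 h1).trans (map_zero _).symm)

/-- **local equations** -/
theorem lEqP (h : IsDv j a) {x : X.Pt} {t : X.F} (ht : At a x t⁻¹) {z : Hm X.P.N → ℂ}
    (hz : AmbAt z t x) :
    PL.LEq (2 * D.dim) (XP X.P) (em X.P).ori (XP D.P) (em D.P).ori (ambM j) z (jP X.P x) := by
  obtain ⟨A⟩ : Nonempty (AnP X.P (D.dim + 1)) := h.dim_eq ▸ nonempty_an X.P
  refine PL.lEq_of_hol (em D.P) (emb A) (j.holMap (an D.P) A) (ambM_j j)
    (fun _ => (contDiff_ambM j).differentiable (by simp) _) (cori_any A).pos (em D.P).cori.pos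
    (imm_rd h.emb (an D.P) A) ?_ ?_
  · filter_upwards [hz, ht.eventually] with y h1 h2
    exact ⟨h1.1, h1.2 ▸ gen_zero_iff h h2⟩
  · rintro ⟨y, rfl⟩
    obtain ⟨α, hx⟩ := A.A.cover (j.map y)
    have e1 : (fun w => z ((emb A).par α w)) =ᶠ[𝓝 (A.A.e α (j.map y))] A.rd α (ev t) :=
      (AnP.eventually_rd hx hz).mono fun w hw => hw.2.2.2
    obtain ⟨w, hw⟩ := exists_dv_ne h A hx ht
    refine ⟨α, hx, (AnP.diffAt hx (gen_mem h ht)).congr_of_eventuallyEq e1, fun h0 => hw ?_⟩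
    rw [e1.fderiv_eq] at h0
    unfold AnP.dv
    rw [h0]
    rfl

end Crest.Agent.X262.Van
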