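import Crest.Agent.R208.GP4a

/-!
# Row 262, package VAN (helper47): germs of forms along a compact set

`X` is an embedded submanifold of `E` (the carrier of `R208`).  Forms are ambient forms, compared
on the tangent spaces of `X`, and only near a set `K`.

* `SmN`, `EqN`, `ClN`, `ExN` : smooth, equal, closed, exact near `K`;
* `ZN S K a` : `a` vanishes on every member of the family `S` near `K`;
* `glueN`   : Mayer-Vietoris for germs along two compact sets;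
* `Rel X S K` : closed forms vanishing on `S` have, near `K`, a primitive vanishing on `S`;
* `rel_of_homotopy`, `rel_of_local` : the local and the global step;
* `rel`     : the relative Poincare lemma along a compact subset of a submanifold;
* `core`    : a closed form which vanishes near `K'` and on `S ⊇ K ∖ K'` is exact near `K`.
-/

set_option autoImplicit false
set_option linter.unusedSectionVars false

open MeasureTheory Set Filter Topology Module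
open scoped ContDiff
open Crest.Agent.R208 Crest.Agent.R208.F Crest.Agent.R208.FI Crest.Agent.R208.CW
open Crest.Agent.R208.T

noncomputable section

namespace Crest.Agent.X262.Van

variable {E : Type} [NormedAddCommGroup E] [NormedSpace ℝ E] [FiniteDimensional ℝ E]
  {X S K K' K₁ K₂ U : Set E} {n m : ℕ} {a b c η η₁ η₂ ζ : E → Ext E} {x : E}
  {ι : Type} {Z : ι → Set E}

/-- restriction to the tangent space -/
abbrev rt (X : Set E) (x : E) : Ext E →ₐ[ℝ] Ext (Tan X x) := pb (Tan X x).subtype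

/-- smooth at the points of `X` near `K` -/
def SmN (X K : Set E) (a : E → Ext E) : Prop := ∀ᶠ x in 𝓝ˢ K, x ∈ X → ContDiffAt ℝ ∞ a x

/-- equal on `X` near `K` -/
def EqN (X K : Set E) (a b : E → Ext E) : Prop :=
  ∀ᶠ x in 𝓝ˢ K, x ∈ X → rt X x (a x) = rt X x (b x)

/-- closed on `X` near `K` -/
def ClN (X K : Set E) (a : E → Ext E) : Prop := EqN X K (F.d a) 0

/-- exact on `X` near `K` -/
def ExN (X K : Set E) (a : E → Ext E) : Prop := ∃ η : E → Ext E, SmN X K η ∧ EqN X K a (F.d η)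

/-- zero on every member of the family `Z`, near `K` -/
def ZN (Z : ι → Set E) (K : Set E) (a : E → Ext E) : Prop :=
  ∀ᶠ x in 𝓝ˢ K, ∀ i, x ∈ Z i → rt (Z i) x (a x) = 0

theorem eqv_inter_iff (hU : IsOpen U) :
    Eqv (X ∩ U) a b ↔ ∀ x ∈ X, x ∈ U → rt X x (a x) = rt X x (b x) := by
  refine ⟨fun h x hx hxU => eqv_of_open hU h hx hxU, fun h => eqv_iff.2 fun x hx => ?_⟩
  have h1 := h x hx.1 hx.2
  have h2 : Tan (X ∩ U) x = Tan X x := Tan_inter_open hU hx.2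
  have h3 : ∀ (K K' : Submodule ℝ E), K = K' → pb K'.subtype (a x) = pb K'.subtype (b x) →
      pb K.subtype (a x) = pb K.subtype (b x) := by
    rintro K K' rfl h; exact h
  exact h3 _ _ h2 h1

theorem exists_open {p : E → Prop} (h : ∀ᶠ x in 𝓝ˢ K, p x) :
    ∃ U : Set E, IsOpen U ∧ K ⊆ U ∧ ∀ x ∈ U, p x := by
  obtain ⟨U, hU, hKU, hp⟩ := mem_nhdsSet_iff_exists.1 h
  exact ⟨U, hU, hKU, fun x hx => hp hx⟩

theorem of_open {p : E → Prop} (hU : IsOpen U) (hKU : K ⊆ U) (h : ∀ x ∈ U, p x) :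
    ∀ᶠ x in 𝓝ˢ K, p x := by
  filter_upwards [hU.mem_nhdsSet.2 hKU] with x hx using h x hx

theorem SmN.mono (h : SmN X K a) (hK : K' ⊆ K) : SmN X K' a :=
  Eventually.filter_mono (nhdsSet_mono hK) h
theorem EqN.mono (h : EqN X K a b) (hK : K' ⊆ K) : EqN X K' a b :=
  Eventually.filter_mono (nhdsSet_mono hK) h
theorem ClN.mono (h : ClN X K a) (hK : K' ⊆ K) : ClN X K' a := EqN.mono h hK
theorem ExN.mono (h : ExN X K a) (hK : K' ⊆ K) : ExN X K' a := by
  obtain ⟨η, h1, h2⟩ := h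
  exact ⟨η, h1.mono hK, h2.mono hK⟩

theorem ZN.mono (h : ZN Z K a) (hK : K' ⊆ K) : ZN Z K' a :=
  Eventually.filter_mono (nhdsSet_mono hK) h
theorem ZN.zero : ZN Z K (0 : E → Ext E) := Eventually.of_forall fun _ _ _ => map_zero _
theorem ZN.sub (h : ZN Z K a) (h' : ZN Z K b) : ZN Z K (a - b) := by
  filter_upwards [h, h'] with x h1 h2 i hx
  rw [Pi.sub_apply, map_sub, h1 i hx, h2 i hx, sub_zero]
theorem zN_of_resZero (h : ∀ i, ResZero (Z i) a) : ZN Z K a :=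
  Eventually.of_forall fun x i hx => h i x hx
theorem ZN.eqN (h : ZN Z K a) (i : ι) : EqN (Z i) K a 0 := by
  filter_upwards [h] with x h1 hx
  rw [h1 i hx]; exact (map_zero _).symm
theorem zN_of_eqN [Finite ι] (h : ∀ i, EqN (Z i) K a 0) : ZN Z K a := by
  filter_upwards [eventually_all.2 h] with x h1 i hx
  rw [h1 i hx]; exact map_zero _

theorem smN_of_sm (h : Sm X a) : SmN X K a := Eventually.of_forall fun x hx => h x hx
theorem eqN_of_eqv (h : Eqv X a b) : EqN X K a b :=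
  Eventually.of_forall fun x hx => eqv_iff.1 h x hx
theorem clN_of_cl (h : Cl X a) : ClN X K a := eqN_of_eqv (resZero_iff.1 h)
theorem exN_of_coh (h : Coh X a 0) : ExN X K a := by
  obtain ⟨ξ, h1, h2⟩ := h
  rw [sub_zero] at h2
  exact ⟨ξ, smN_of_sm h1, eqN_of_eqv h2⟩

theorem SmN.zero : SmN X K (0 : E → Ext E) := smN_of_sm Sm.zero
theorem SmN.add (h : SmN X K a) (h' : SmN X K b) : SmN X K (a + b) := by
  filter_upwards [h, h'] with x h1 h2 hx using (h1 hx).add (h2 hx)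
theorem SmN.sub (h : SmN X K a) (h' : SmN X K b) : SmN X K (a - b) := by
  filter_upwards [h, h'] with x h1 h2 hx using (h1 hx).sub (h2 hx)
theorem SmN.neg (h : SmN X K a) : SmN X K (-a) := by
  filter_upwards [h] with x h1 hx using (h1 hx).neg
theorem SmN.d (h : SmN X K a) : SmN X K (F.d a) := by
  filter_upwards [h] with x h1 hx using contDiffAt_d (h1 hx) (by simp)
theorem SmN.dp (j : ℕ) (h : SmN X K a) : SmN X K (T.dp j a) := by
  filter_upwards [h] with x h1 hx using (dplL j).contDiff.contDiffAt.comp x (h1 hx)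

theorem EqN.refl (a : E → Ext E) : EqN X K a a := Eventually.of_forall fun _ _ => rfl
theorem EqN.symm (h : EqN X K a b) : EqN X K b a := by
  filter_upwards [h] with x h1 hx using (h1 hx).symm
theorem EqN.trans (h : EqN X K a b) (h' : EqN X K b c) : EqN X K a c := by
  filter_upwards [h, h'] with x h1 h2 hx using (h1 hx).trans (h2 hx)
theorem EqN.add {a' b' : E → Ext E} (h : EqN X K a b) (h' : EqN X K a' b') :
    EqN X K (a + a') (b + b') := by
  filter_upwards [h, h'] with x h1 h2 hx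
  rw [Pi.add_apply, Pi.add_apply, map_add, map_add, h1 hx, h2 hx]
theorem EqN.sub {a' b' : E → Ext E} (h : EqN X K a b) (h' : EqN X K a' b') :
    EqN X K (a - a') (b - b') := by
  filter_upwards [h, h'] with x h1 h2 hx
  rw [Pi.sub_apply, Pi.sub_apply, map_sub, map_sub, h1 hx, h2 hx]
theorem EqN.neg (h : EqN X K a b) : EqN X K (-a) (-b) := by
  filter_upwards [h] with x h1 hx
  rw [Pi.neg_apply, Pi.neg_apply, map_neg, map_neg, h1 hx]
theorem eqN_sub_zero : EqN X K (a - b) 0 ↔ EqN X K a b := by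
  constructor
  · intro h
    have := h.add (EqN.refl b)
    rwa [sub_add_cancel, zero_add] at this
  · intro h
    have := h.sub (EqN.refl b)
    rwa [sub_self] at this

theorem d_add_eqN (h : SmN X K a) (h' : SmN X K b) : EqN X K (F.d (a + b)) (F.d a + F.d b) := by
  filter_upwards [h, h'] with x h1 h2 hx
  congr 1
  exact F.d_add ((h1 hx).differentiableAt (by simp)) ((h2 hx).differentiableAt (by simp))
theorem d_sub_eqN (h : SmN X K a) (h' : SmN X K b) : EqN X K (F.d (a - b)) (F.d a - F.d b) := by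
  filter_upwards [h, h'] with x h1 h2 hx
  congr 1
  exact F.d_sub ((h1 hx).differentiableAt (by simp)) ((h2 hx).differentiableAt (by simp))
theorem d_d_eqN (h : SmN X K a) : ClN X K (F.d a) := by
  filter_upwards [h] with x h1 hx
  rw [F.d_d ((h1 hx).of_le two_le)]; rfl

theorem ClN.sub (h : SmN X K a) (h' : SmN X K b) (c1 : ClN X K a) (c2 : ClN X K b) :
    ClN X K (a - b) := by
  have := (d_sub_eqN h h').trans (EqN.sub c1 c2)
  rwa [sub_zero] at this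

theorem EqN.d (hX : Sub n X) (ha : SmN X K a) (hb : SmN X K b) (h : EqN X K a b) :
    EqN X K (F.d a) (F.d b) := by
  obtain ⟨U, hU, hKU, hp⟩ := exists_open (ha.and (hb.and h))
  have h1 : Eqv (X ∩ U) (F.d a) (F.d b) :=
    Eqv.d (hX.inter_open hU) (fun x hx => (hp x hx.2).1 hx.1) (fun x hx => (hp x hx.2).2.1 hx.1)
      ((eqv_inter_iff hU).2 fun x hx hxU => (hp x hxU).2.2 hx)
  exact of_open hU hKU fun x hxU hx => (eqv_inter_iff hU).1 h1 x hx hxU

theorem EqN.dp (j : ℕ) (h : EqN X K a b) : EqN X K (T.dp j a) (T.dp j b) := by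
  filter_upwards [h] with x h1 hx
  show pb _ (dpl j (a x)) = pb _ (dpl j (b x))
  rw [← dpl_pb, ← dpl_pb]
  exact congrArg (dpl j) (h1 hx)

theorem ExN.add_d (h : SmN X K η) (h' : ExN X K (a - F.d η)) : ExN X K a := by
  obtain ⟨ξ, h1, h2⟩ := h'
  refine ⟨ξ + η, h1.add h, ?_⟩
  have := (h2.add (EqN.refl (F.d η))).trans (d_add_eqN h1 h).symm
  rwa [sub_add_cancel] at this

/-- a primitive near a compact set may be chosen smooth on the whole of `X` -/
theorem ExN.exists_global (hK : IsCompact K) (h : ExN X K a) :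
    ∃ η : E → Ext E, Sm X η ∧ EqN X K a (F.d η) := by
  obtain ⟨η, h1, h2⟩ := h
  obtain ⟨U, hU, hKU, hp⟩ := exists_open h1
  obtain ⟨χ, hχ, c0, c1, -⟩ := GP.exists_cut (K₁ := Uᶜ) (K₂ := K) hU.isClosed_compl hK.isClosed
    (Set.disjoint_left.2 fun x hx hx' => hx (hKU hx'))
  refine ⟨fun x => χ x • η x, GP.sm_cut hχ (fun x _ hxU => c0 x hxU) (U := U)
    (fun x hx => hp x hx.2 hx.1), h2.trans ?_⟩
  have h3 : ∀ᶠ x in 𝓝ˢ K, ∀ᶠ y in 𝓝 x, χ y = 1 :=
    eventually_nhdsSet_iff_forall.2 fun x hx => (c1 x hx).eventually_nhds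
  filter_upwards [h3] with x hx _
  congr 1
  refine F.d_congr ?_
  filter_upwards [hx] with y hy
  rw [hy, one_smul]

/-- homogeneous version -/
theorem ExN.exists_hom {p : ℕ} (hK : IsCompact K) (h : ExN X K a) (ha : Hom (p + 1) a) :
    ∃ η : E → Ext E, Sm X η ∧ Hom p η ∧ EqN X K a (F.d η) := by
  obtain ⟨η, h1, h2⟩ := h.exists_global hK
  refine ⟨T.dp p η, h1.dp p, hom_dp p η, ?_⟩
  have h3 := (h2.dp (p + 1)).trans (eqN_of_eqv (Eqv.of_eq fun x hx => dp_d p (h1.diff hx)))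
  rwa [ha.dp_eq] at h3

/-- **Mayer-Vietoris for germs** -/
theorem glueN (hX : Sub n X) (hK₁ : IsCompact K₁) (hK₂ : IsCompact K₂)
    (s1 : SmN X K₁ η₁) (s2 : SmN X K₂ η₂) (s3 : SmN X (K₁ ∩ K₂) ζ)
    (e1 : EqN X K₁ a (F.d η₁)) (e2 : EqN X K₂ a (F.d η₂))
    (e3 : EqN X (K₁ ∩ K₂) (η₁ - η₂) (F.d ζ))
    (z1 : ZN Z K₁ η₁) (z2 : ZN Z K₂ η₂) (z3 : ZN Z (K₁ ∩ K₂) ζ) :
    ∃ η : E → Ext E, SmN X (K₁ ∪ K₂) η ∧ EqN X (K₁ ∪ K₂) a (F.d η) ∧ ZN Z (K₁ ∪ K₂) η := by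
  have hi1 : K₁ ∩ K₂ ⊆ K₁ := inter_subset_left
  have hi2 : K₁ ∩ K₂ ⊆ K₂ := inter_subset_right
  obtain ⟨U, hU, hKU, hp⟩ := exists_open ((s1.mono hi1).and ((s2.mono hi2).and (s3.and
    ((e1.mono hi1).and (e3.and ((z1.mono hi1).and ((z2.mono hi2).and z3)))))))
  obtain ⟨χ, hχ, c0, c1, -⟩ := GP.exists_cut (K₁ := K₁ \ U) (K₂ := K₂ \ U)
    (hK₁.isClosed.sdiff hU) (hK₂.isClosed.sdiff hU)
    (Set.disjoint_left.2 fun x hx hx' => hx.2 (hKU ⟨hx.1, hx'.1⟩))
  set dχ : E → Ext E := fun x => io ((fderiv ℝ χ x : E →L[ℝ] ℝ) : Module.Dual ℝ E) with hdχ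
  have sdχ : ∀ x, ContDiffAt ℝ ∞ dχ x := by
    intro x
    have h1 : ContDiffAt ℝ ∞ (fun y => χ y • (1 : Ext E)) x :=
      hχ.contDiffAt.smul (contDiffAt_const (c := (1 : Ext E)))
    have h2 : dχ = F.d (fun y => χ y • (1 : Ext E)) := by
      funext y
      rw [F.d_smul (hχ.contDiffAt.differentiableAt (by simp)) (differentiableAt_const _),
        F.d_const, smul_zero, add_zero, mul_one]
    rw [h2]
    exact contDiffAt_d h1 (by simp)
  set η : E → Ext E := fun x => (1 - χ x) • η₁ x + χ x • η₂ x - dχ x * ζ x with hη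
  -- where `χ` is locally constant
  have n0 : ∀ y, (∀ᶠ z in 𝓝 y, χ z = 0) → η =ᶠ[𝓝 y] η₁ := by
    intro y hy
    filter_upwards [hy.eventually_nhds] with z hz
    have h1 : fderiv ℝ χ z = 0 := by
      have : χ =ᶠ[𝓝 z] fun _ => 0 := hz
      rw [this.fderiv_eq, fderiv_fun_const]; rfl
    simp only [hη, hdχ, hz.self_of_nhds, h1, sub_zero, one_smul, zero_smul, add_zero,
      ContinuousLinearMap.toLinearMap_zero, map_zero, zero_mul]
  have n1 : ∀ y, (∀ᶠ z in 𝓝 y, χ z = 1) → η =ᶠ[𝓝 y] η₂ := by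
    intro y hy
    filter_upwards [hy.eventually_nhds] with z hz
    have h1 : fderiv ℝ χ z = 0 := by
      have : χ =ᶠ[𝓝 z] fun _ => 1 := hz
      rw [this.fderiv_eq, fderiv_fun_const]; rfl
    simp only [hη, hdχ, hz.self_of_nhds, h1, sub_self, one_smul, zero_smul, zero_add,
      ContinuousLinearMap.toLinearMap_zero, map_zero, zero_mul, sub_zero]
  -- on `U`
  have t1 : Sm (X ∩ U) η₁ := fun x hx => (hp x hx.2).1 hx.1
  have t2 : Sm (X ∩ U) η₂ := fun x hx => (hp x hx.2).2.1 hx.1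
  have t3 : Sm (X ∩ U) ζ := fun x hx => (hp x hx.2).2.2.1 hx.1
  have sU : Sm (X ∩ U) η := fun x hx =>
    ((((contDiff_const.sub hχ).contDiffAt).smul (t1 x hx)).add
      (hχ.contDiffAt.smul (t2 x hx))).sub (contDiffAt_mul (sdχ x) (t3 x hx))
  have sχζ : Sm (X ∩ U) (fun x => χ x • ζ x) := fun x hx => hχ.contDiffAt.smul (t3 x hx)
  have eU : Eqv (X ∩ U) η (η₁ - F.d (fun x => χ x • ζ x)) := by
    refine (eqv_inter_iff hU).2 fun x hx hxU => ?_
    have h1 := (hp x hxU).2.2.2.2.1 hx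
    rw [Pi.sub_apply, map_sub] at h1
    rw [Pi.sub_apply, F.d_smul (hχ.contDiffAt.differentiableAt (by simp)) (t3.diff ⟨hx, hxU⟩)]
    simp only [hη, hdχ, map_sub, map_add, map_smul, ← h1, smul_sub, sub_smul, one_smul]
    abel
  have dU : ∀ x ∈ X, x ∈ U → rt X x (a x) = rt X x (F.d η x) := by
    have h1 := eU.d (hX.inter_open hU) sU (t1.sub sχζ.d)
    have h2 := d_sub_eqv t1 sχζ.d
    have h3 : Eqv (X ∩ U) (F.d η₁ - F.d (F.d (fun x => χ x • ζ x))) (F.d η₁) := by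
      have := (Eqv.refl (X := X ∩ U) (F.d η₁)).sub (resZero_iff.1 (d_d' sχζ))
      rwa [sub_zero] at this
    have h4 := (eqv_inter_iff hU).1 (h1.trans (h2.trans h3))
    intro x hx hxU
    rw [h4 x hx hxU]
    exact (hp x hxU).2.2.2.1 hx
  have zU : ∀ x ∈ U, ∀ i, x ∈ Z i → rt (Z i) x (η x) = 0 := by
    intro x hxU i hx
    have h1 := (hp x hxU).2.2.2.2.2.1 i hx
    have h2 := (hp x hxU).2.2.2.2.2.2.1 i hx
    have h3 := (hp x hxU).2.2.2.2.2.2.2 i hx
    simp only [hη, map_sub, map_add, map_smul, map_mul, h1, h2, h3, smul_zero, mul_zero, add_zero,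
      sub_zero]
  have key : ∀ᶠ y in 𝓝ˢ (K₁ ∪ K₂), (y ∈ X → ContDiffAt ℝ ∞ η y) ∧
      (y ∈ X → rt X y (a y) = rt X y (F.d η y)) ∧
      (∀ i, y ∈ Z i → rt (Z i) y (η y) = 0) := by
    refine eventually_nhdsSet_iff_forall.2 fun x hx => ?_
    by_cases hxU : x ∈ U
    · filter_upwards [hU.mem_nhds hxU] with y hy
      exact ⟨fun h => sU y ⟨h, hy⟩, fun h => dU y h hy, zU y hy⟩
    · rcases hx with hx | hx
      · filter_upwards [(c0 x ⟨hx, hxU⟩).eventually_nhds, eventually_nhdsSet_iff_forall.1 s1 x hx,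
          eventually_nhdsSet_iff_forall.1 e1 x hx, eventually_nhdsSet_iff_forall.1 z1 x hx]
          with y h1 h2 h3 h4
        have h5 := n0 y h1
        refine ⟨fun h => (h2 h).congr_of_eventuallyEq h5, fun h => ?_, fun i h => ?_⟩
        · rw [F.d_congr h5]; exact h3 h
        · rw [h5.self_of_nhds]; exact h4 i h
      · filter_upwards [(c1 x ⟨hx, hxU⟩).eventually_nhds, eventually_nhdsSet_iff_forall.1 s2 x hx,
          eventually_nhdsSet_iff_forall.1 e2 x hx, eventually_nhdsSet_iff_forall.1 z2 x hx]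
          with y h1 h2 h3 h4
        have h5 := n1 y h1
        refine ⟨fun h => (h2 h).congr_of_eventuallyEq h5, fun h => ?_, fun i h => ?_⟩
        · rw [F.d_congr h5]; exact h3 h
        · rw [h5.self_of_nhds]; exact h4 i h
  exact ⟨η, key.mono fun _ h => h.1, key.mono fun _ h => h.2.1, key.mono fun _ h => h.2.2⟩

/-- closed forms vanishing on the family `Z` have, near `K`, a primitive vanishing on `Z` -/
def Rel (X : Set E) (Z : ι → Set E) (K : Set E) : Prop :=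
  ∀ a : E → Ext E, SmN X K a → ClN X K a → ZN Z K a →
    ∃ η : E → Ext E, SmN X K η ∧ EqN X K a (F.d η) ∧ ZN Z K η

theorem rel_empty : Rel X Z ∅ := fun a _ _ _ =>
  ⟨0, SmN.zero, by simp only [EqN, nhdsSet_empty, eventually_bot], ZN.zero⟩

theorem Rel.union (hX : Sub n X) (hK₁ : IsCompact K₁) (hK₂ : IsCompact K₂) (h1 : Rel X Z K₁)
    (h2 : Rel X Z K₂) (h3 : Rel X Z (K₁ ∩ K₂)) : Rel X Z (K₁ ∪ K₂) := by
  intro a sa ca za
  have hi1 : K₁ ∩ K₂ ⊆ K₁ := inter_subset_left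
  have hi2 : K₁ ∩ K₂ ⊆ K₂ := inter_subset_right
  obtain ⟨η₁, s1, e1, z1⟩ := h1 a (sa.mono subset_union_left) (ca.mono subset_union_left)
    (za.mono subset_union_left)
  obtain ⟨η₂, s2, e2, z2⟩ := h2 a (sa.mono subset_union_right) (ca.mono subset_union_right)
    (za.mono subset_union_right)
  have c3 : ClN X (K₁ ∩ K₂) (η₁ - η₂) := by
    have := (d_sub_eqN (s1.mono hi1) (s2.mono hi2)).trans
      ((e1.mono hi1).symm.sub (e2.mono hi2).symm)
    rwa [sub_self] at this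
  obtain ⟨ζ, s3, e3, z3⟩ := h3 (η₁ - η₂) ((s1.mono hi1).sub (s2.mono hi2)) c3
    ((z1.mono hi1).sub (z2.mono hi2))
  exact glueN hX hK₁ hK₂ s1 s2 s3 e1 e2 e3 z1 z2 z3

/-- **local step**: a deformation of `X` into `Z i₀` which fixes `K` and preserves the family -/
theorem rel_of_homotopy (hZ : ∀ i, Z i ⊆ X) {Fh : E × ℝ → E} {Ω₀ : Set (E × ℝ)} (hΩ₀ : IsOpen Ω₀)
    (hK : K ⊆ Sl Ω₀) (FC : ∀ p ∈ Ω₀, ContDiffAt ℝ ∞ Fh p) (FX : ∀ p ∈ Ω₀, p.1 ∈ X → Fh p ∈ X)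
    (FK : ∀ y ∈ K, ∀ t ∈ Icc (0 : ℝ) 1, Fh (y, t) = y)
    (F1 : ∀ y ∈ X, (y, 1) ∈ Ω₀ → Fh (y, 1) = y) (i₀ : ι)
    (F0 : ∀ y ∈ X, (y, 0) ∈ Ω₀ → Fh (y, 0) ∈ Z i₀)
    (FZ : ∀ i, ∀ p ∈ Ω₀, p.1 ∈ Z i → Fh p ∈ Z i) : Rel X Z K := by
  intro a sa ca za
  obtain ⟨U, hU, hKU, hp⟩ := exists_open (sa.and (ca.and za))
  set Ω : Set (E × ℝ) := Ω₀ ∩ Fh ⁻¹' U with hΩ
  have hΩo : IsOpen Ω :=
    ContinuousOn.isOpen_inter_preimage (fun p hp => (FC p hp).continuousAt.continuousWithinAt)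
      hΩ₀ hU
  have hU' : IsOpen (Sl Ω) := isOpen_Sl hΩo
  have hKU' : K ⊆ Sl Ω := fun y hy t ht =>
    ⟨hK hy t ht, by rw [mem_preimage, FK y hy t ht]; exact hKU hy⟩
  have i0 : (0 : ℝ) ∈ Icc (0 : ℝ) 1 := left_mem_Icc.2 zero_le_one
  have i1 : (1 : ℝ) ∈ Icc (0 : ℝ) 1 := right_mem_Icc.2 zero_le_one
  have hF : ∀ y ∈ Sl Ω, ∀ t ∈ Icc (0 : ℝ) 1, ContDiffAt ℝ ∞ Fh (y, t) := fun y hy t ht =>
    FC _ (hy t ht).1
  have hm : ∀ y ∈ X ∩ Sl Ω, ∀ t ∈ Icc (0 : ℝ) 1, Fh (y, t) ∈ X ∩ U := fun y hy t ht =>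
    ⟨FX _ (hy.2 t ht).1 hy.1, (hy.2 t ht).2⟩
  have sU : Sm (X ∩ U) a := fun y hy => (hp y hy.2).1 hy.1
  have cU : Cl (X ∩ U) a :=
    resZero_iff.2 ((eqv_inter_iff hU).2 fun y hy hyU => (hp y hyU).2.1 hy)
  have zU : ∀ i, ResZero (Z i ∩ U) a := fun i =>
    resZero_iff.2 ((eqv_inter_iff hU).2 fun y hy hyU => by
      rw [(hp y hyU).2.2 i hy]; exact (map_zero _).symm)
  have hFt : ∀ t ∈ Icc (0 : ℝ) 1, ∀ y ∈ Sl Ω, ContDiffAt ℝ ∞ (fun z : E => Fh (z, t)) y :=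
    fun t ht y hy => (hF y hy t ht).comp (f := fun z : E => (z, t)) y
      (contDiffAt_id.prodMk contDiffAt_const)
  refine ⟨Hop Fh a, of_open hU' hKU' fun y hy hyX =>
    contDiffAt_Hop (hF y hy) fun t ht => sU _ (hm y ⟨hyX, hy⟩ t ht), ?_,
    of_open hU' hKU' fun y hy i hyS => ?_⟩
  · have h1 : Eqv (X ∩ Sl Ω) (F.pull (fun y => Fh (y, 1)) a - F.pull (fun y => Fh (y, 0)) a)
        (F.d (Hop Fh a)) :=
      resZero_Hop (X := X ∩ Sl Ω) (Y := X ∩ U)
        (fun y hy t ht => (hF y hy.2 t ht).of_le two_le) hm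
        (fun y hy => (sU y hy).of_le (by exact_mod_cast le_top)) cU
    have h2 : Eqv (X ∩ Sl Ω) (F.pull (fun y => Fh (y, 1)) a) a := by
      have h3 := eqv_pull_of_eq (X := X ∩ Sl Ω) (f := fun y => Fh (y, 1)) (g := fun y => y) a
        (fun y hy => (hFt 1 i1 y hy.2).differentiableAt (by simp))
        (fun y _ => differentiableAt_id) (fun y hy => F1 y hy.1 (hy.2 1 i1).1)
      exact h3.trans (Eqv.of_eq fun y _ => F.pull_id a y)
    have h4 : Eqv (X ∩ Sl Ω) (F.pull (fun y => Fh (y, 0)) a) 0 :=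
      resZero_iff.1 (ResZero.pull (Y := Z i₀ ∩ U) ⟨fun y hy => hFt 0 i0 y hy.2,
        fun y hy => ⟨F0 y hy.1 (hy.2 0 i0).1, (hy.2 0 i0).2⟩⟩ (zU i₀))
    have h5 := (h2.sub h4).symm.trans h1
    rw [sub_zero] at h5
    exact of_open hU' hKU' fun y hy hyX => (eqv_inter_iff hU').1 h5 y hyX hy
  · have h1 : ResZero (Z i ∩ Sl Ω) (Hop Fh a) :=
      resZero_hop (j := ContinuousLinearMap.inl ℝ E ℝ) (v := ((0, 1) : E × ℝ)) (Y := Z i ∩ U)
        (fun y hy t ht => by rw [jv_inl]; exact (hF y hy.2 t ht).of_le two_le)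
        (fun y hy t ht => by rw [jv_inl]; exact ⟨FZ i _ (hy.2 t ht).1 hy.1, (hy.2 t ht).2⟩)
        (fun y hy t ht => by
          rw [jv_inl]; exact (sU _ (hm y ⟨hZ i hy.1, hy.2⟩ t ht)).continuousAt) (zU i)
    rw [(eqv_inter_iff hU').1 (resZero_iff.1 h1) y hyS hy]
    exact map_zero _

/-- **global step** -/
theorem rel_of_local (hX : Sub n X) (hK : IsCompact K)
    (h : ∀ x ∈ K, ∃ V : Set E, IsOpen V ∧ x ∈ V ∧ ∀ L, IsCompact L → L ⊆ V ∩ K → Rel X Z L) :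
    Rel X Z K := by
  have key : ∃ V : Set E, IsOpen V ∧ K ⊆ V ∧ ∀ L, IsCompact L → L ⊆ V ∩ K → Rel X Z L := by
    refine hK.induction_on (p := fun T => ∃ V : Set E, IsOpen V ∧ T ⊆ V ∧
      ∀ L, IsCompact L → L ⊆ V ∩ K → Rel X Z L) ?_ ?_ ?_ ?_
    · refine ⟨∅, isOpen_empty, Subset.rfl, fun L _ hL => ?_⟩
      rw [subset_empty_iff.1 fun y hy => (hL hy).1]
      exact rel_empty
    · rintro s t hst ⟨V, h1, h2, h3⟩
      exact ⟨V, h1, hst.trans h2, h3⟩
    · rintro s t ⟨V, h1, h2, h3⟩ ⟨V', h1', h2', h3'⟩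
      refine ⟨V ∪ V', h1.union h1', union_subset_union h2 h2', fun L hL hLV => ?_⟩
      obtain ⟨L₁, L₂, c1, c2, d1, d2, rfl⟩ :=
        hL.binary_compact_cover h1 h1' fun y hy => (hLV hy).1
      have e1 : L₁ ⊆ V ∩ K := fun y hy => ⟨d1 hy, (hLV (Or.inl hy)).2⟩
      have e2 : L₂ ⊆ V' ∩ K := fun y hy => ⟨d2 hy, (hLV (Or.inr hy)).2⟩
      exact Rel.union hX c1 c2 (h3 _ c1 e1) (h3' _ c2 e2)
        (h3 _ (c1.inter c2) (inter_subset_left.trans e1))
    · intro x hx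
      obtain ⟨V, h1, h2, h3⟩ := h x hx
      exact ⟨V, mem_nhdsWithin_of_mem_nhds (h1.mem_nhds h2), V, h1, Subset.rfl, h3⟩
  obtain ⟨V, -, h2, h3⟩ := key
  exact h3 K hK fun y hy => ⟨h2 hy, hy⟩

/-- **relative Poincare lemma**, local form -/
theorem loc_rel (hX : Sub n X) (hS : Sub m S) (hSX : S ⊆ X) (hx : x ∈ S) :
    ∃ V : Set E, IsOpen V ∧ x ∈ V ∧ ∀ K, K ⊆ V ∩ S → Rel X (fun _ : Unit => S) K := by
  obtain ⟨f, W₀, O₀, ℓ, hL₀, hxO₀⟩ := hX.exists_loc (hSX hx)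
  obtain ⟨ρ, hρ, hB⟩ := Metric.isOpen_iff.1 hL₀.oW (ℓ x) (hL₀.maps x hxO₀)
  have hL := hL₀.restrict hB Metric.isOpen_ball
  set B := Metric.ball (ℓ x) ρ with hBdef
  set O := O₀ ∩ ℓ ⁻¹' B with hO
  have hxO : x ∈ O := ⟨hxO₀, Metric.mem_ball_self hρ⟩
  obtain ⟨g, W', O', ℓ', hL', hxO'⟩ := hS.exists_loc hx
  set r : E → E := fun y => g (ℓ' y) with hr
  have rC : ∀ y ∈ O', ContDiffAt ℝ ∞ r y := fun y hy =>
    (hL'.fC' (hL'.maps y hy)).comp y (hL'.lC' hy)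
  have rS : ∀ y ∈ O', r y ∈ S := fun y hy => (hL'.mem (hL'.maps y hy)).1
  have rid : ∀ y ∈ S, y ∈ O' → r y = y := fun y hy hyO => hL'.right_inv hy hyO
  have rc : ContinuousOn r O' := fun y hy => (rC y hy).continuousAt.continuousWithinAt
  set V : Set E := O ∩ (O' ∩ r ⁻¹' O) with hV
  have hVo : IsOpen V := hL.oO.inter (rc.isOpen_inter_preimage hL'.oO hL.oO)
  refine ⟨V, hVo, ⟨hxO, hxO', by rw [mem_preimage, rid x hx hxO']; exact hxO⟩, ?_⟩
  set A : E × ℝ → Eu n := fun p => (1 - p.2) • ℓ (r p.1) + p.2 • ℓ p.1 with hA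
  have AC : ∀ p : E × ℝ, p.1 ∈ V → ContDiffAt ℝ ∞ A p := by
    intro p hp
    have h1 : ContDiffAt ℝ ∞ (fun q : E × ℝ => ℓ (r q.1)) p :=
      ((hL.lC' hp.2.2).comp p.1 (rC _ hp.2.1)).comp p contDiffAt_fst
    have h2 : ContDiffAt ℝ ∞ (fun q : E × ℝ => ℓ q.1) p := (hL.lC' hp.1).comp p contDiffAt_fst
    exact ((contDiffAt_const.sub contDiffAt_snd).smul h1).add (contDiffAt_snd.smul h2)
  have AB : ∀ y ∈ V, ∀ t ∈ Icc (0 : ℝ) 1, A (y, t) ∈ B := fun y hy t ht =>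
    (convex_ball (ℓ x) ρ) (hL.maps _ hy.2.2) (hL.maps _ hy.1) (sub_nonneg.2 ht.2) ht.1 (by ring)
  have FS : ∀ y ∈ V, y ∈ S → ∀ t, f (A (y, t)) = y := by
    intro y hy hyS t
    simp only [hA, rid y hyS hy.2.1]
    rw [← add_smul, sub_add_cancel, one_smul]
    exact hL.right_inv (hSX hyS) hy.1
  have hΩ : IsOpen ((Prod.fst ⁻¹' V : Set (E × ℝ)) ∩ A ⁻¹' B) :=
    ContinuousOn.isOpen_inter_preimage (fun p hp => (AC p hp).continuousAt.continuousWithinAt)
      (hVo.preimage continuous_fst) Metric.isOpen_ball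
  intro K hK
  refine rel_of_homotopy (Fh := fun p => f (A p)) (fun _ => hSX) hΩ
    (fun y hy t ht => ⟨(hK hy).1, AB y (hK hy).1 t ht⟩)
    (fun p hp => (hL.fC' hp.2).comp p (AC p hp.1)) (fun p hp _ => (hL.mem hp.2).1)
    (fun y hy t _ => FS y (hK hy).1 (hK hy).2 t) (fun y hy h => ?_) () (fun y _ h => ?_)
    (fun _ p hp h => ?_)
  · simp only [hA, sub_self, zero_smul, zero_add, one_smul]
    exact hL.right_inv hy h.1.1
  · simp only [hA, sub_zero, zero_smul, add_zero, one_smul]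
    rw [hL.right_inv (hSX (rS y h.1.2.1)) h.1.2.2]
    exact rS y h.1.2.1
  · have := FS p.1 hp.1 h p.2
    simp only [Prod.mk.eta] at this
    rw [this]
    exact h

/-- **relative Poincare lemma** along a compact subset of a submanifold -/
theorem rel (hX : Sub n X) (hS : Sub m S) (hSX : S ⊆ X) (hK : IsCompact K) (hKS : K ⊆ S) :
    Rel X (fun _ : Unit => S) K :=
  rel_of_local hX hK fun x hx => by
    obtain ⟨V, h1, h2, h3⟩ := loc_rel hX hS hSX (hKS hx)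
    exact ⟨V, h1, h2, fun L _ hL => h3 L fun y hy => ⟨(hL hy).1, hKS (hL hy).2⟩⟩

theorem rel' (hX : Sub n X) (hS : Sub m S) (hSX : S ⊆ X) (hK : IsCompact K) (hKS : K ⊆ S)
    (sa : SmN X K a) (ca : ClN X K a) (za : EqN S K a 0) :
    ∃ η : E → Ext E, SmN X K η ∧ EqN X K a (F.d η) ∧ EqN S K η 0 := by
  obtain ⟨η, h1, h2, h3⟩ := rel hX hS hSX hK hKS a sa ca (zN_of_eqN fun _ => za)
  exact ⟨η, h1, h2, h3.eqN ()⟩

/-- a closed form vanishing near `K'` and on a submanifold containing `K ∖ K'` is exact near `K` -/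
theorem core (hX : Sub n X) (hS : Sub m S) (hSX : S ⊆ X) (hK : IsCompact K) (hK' : IsCompact K')
    (hKS : K \ K' ⊆ S) (sa : SmN X K a) (ca : ClN X K a) (h0 : EqN X K' a 0) (za : EqN S K a 0) :
    ExN X K a := by
  obtain ⟨U, hU, hKU, hp⟩ := exists_open h0
  obtain ⟨L, hL, hL1, hL2⟩ := exists_compact_between hK' hU hKU
  have c1 : IsCompact (K ∩ L) := hK.inter hL
  have c2 : IsCompact (K \ interior L) := hK.diff isOpen_interior
  have d2 : K \ interior L ⊆ S := fun y hy => hKS ⟨hy.1, fun h => hy.2 (hL1 h)⟩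
  have hKK : K ∩ L ∪ K \ interior L = K := by
    apply Subset.antisymm
    · exact union_subset inter_subset_left sdiff_subset
    · intro y hy
      by_cases h : y ∈ interior L
      · exact Or.inl ⟨hy, interior_subset h⟩
      · exact Or.inr ⟨hy, h⟩
  have z1 : EqN X (K ∩ L) a 0 := of_open hU (inter_subset_right.trans hL2) hp
  obtain ⟨η₂, s2, e2, z2⟩ := rel' hX hS hSX c2 d2 (sa.mono sdiff_subset) (ca.mono sdiff_subset)
    (za.mono sdiff_subset)
  have hi1 : K ∩ L ∩ (K \ interior L) ⊆ K ∩ L := inter_subset_left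
  have hi2 : K ∩ L ∩ (K \ interior L) ⊆ K \ interior L := inter_subset_right
  have c3 : ClN X (K ∩ L ∩ (K \ interior L)) (0 - η₂) := by
    rw [zero_sub, ClN, d_neg']
    have := ((e2.mono hi2).symm.trans (z1.mono hi1)).neg
    rwa [neg_zero] at this
  have z3 : EqN S (K ∩ L ∩ (K \ interior L)) (0 - η₂) 0 := by
    have := (z2.mono hi2).neg
    rwa [neg_zero, ← zero_sub] at this
  obtain ⟨ζ, s3, e3, -⟩ := rel' hX hS hSX (c1.inter c2) (hi2.trans d2) (a := 0 - η₂)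
    (SmN.zero.sub (s2.mono hi2)) c3 z3
  have ee : ∀ (L' : Set E) (w : E → Ext E), ZN (fun _ : Empty => (∅ : Set E)) L' w :=
    fun L' w => Eventually.of_forall fun y i => i.elim
  obtain ⟨η, h1, h2, -⟩ := glueN (η₁ := 0) hX c1 c2 SmN.zero s2 s3
    (by rw [d_zero']; exact z1) e2 e3 (ee _ _) (ee _ _) (ee _ _)
  rw [hKK] at h1 h2
  exact ⟨η, h1, h2⟩

end Crest.Agent.X262.Van
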