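import Crest.Agent.X262.Van.Step

/-!
# Row 262, package VAN (helper47): families with normal crossings

* `Ret X Z i x`  : a local deformation retraction of `X` onto `Z i` which preserves the family;
* `SncAt`, `Snc` : in a chart the members of the family are images of compatible projections;
* `rel_snc`      : the relative Poincare lemma along the union;
* `ext_snc`      : compatible forms on the members extend to one form;
* `exN_snc`      : a closed form with compatible primitives on the members is exact near the union;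
* `Par.push`     : a closed form which is exact near the exceptional set is a pull-back.
-/

set_option autoImplicit false
set_option linter.unusedSectionVars false

open MeasureTheory Set Filter Topology Module
open scoped ContDiff Manifold
open Crest.Agent.R208 Crest.Agent.R208.F Crest.Agent.R208.FI Crest.Agent.R208.CW
open Crest.Agent.R208.T

noncomputable section

namespace Crest.Agent.X262.Van

variable {E : Type} [NormedAddCommGroup E] [NormedSpace ℝ E] [FiniteDimensional ℝ E]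
  {E' : Type} [NormedAddCommGroup E'] [NormedSpace ℝ E'] [FiniteDimensional ℝ E']
  {X K K' : Set E} {n m p : ℕ} {a : E → Ext E} {x : E} {ι : Type} {Z : ι → Set E}

/-- near `x`, a deformation retraction of `X` onto `Z i₀` which preserves the family `Z` -/
def Ret (X : Set E) (Z : ι → Set E) (i₀ : ι) (x : E) : Prop :=
  ∃ (Fh : E × ℝ → E) (Ω : Set (E × ℝ)), IsOpen Ω ∧ x ∈ Sl Ω ∧ (∀ p ∈ Ω, ContDiffAt ℝ ∞ Fh p) ∧
    (∀ p ∈ Ω, Fh p ∈ X) ∧ (∀ p ∈ Ω, p.1 ∈ Z i₀ → Fh p = p.1) ∧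
    (∀ y ∈ X, (y, 1) ∈ Ω → Fh (y, 1) = y) ∧ (∀ y, (y, 0) ∈ Ω → Fh (y, 0) ∈ Z i₀) ∧
    ∀ i, ∀ p ∈ Ω, p.1 ∈ Z i → Fh p ∈ Z i

/-- near `x` the members of the family through `x` are images of compatible linear projections -/
def SncAt (P : Type) [NormedAddCommGroup P] [NormedSpace ℝ P] (X : Set E) (Z : ι → Set E)
    (x : E) : Prop :=
  ∃ (f : P → E) (W : Set P) (O : Set E) (ℓ : E → P) (π : ι → P →L[ℝ] P), Loc X f W O ℓ ∧ x ∈ O ∧
    (∀ i, x ∈ Z i → ∀ w ∈ W, f w ∈ Z i ↔ π i w = w) ∧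
    (∀ i, x ∈ Z i → ∀ w, π i (π i w) = π i w) ∧
    ∀ i j, x ∈ Z i → x ∈ Z j → ∀ w, π j w = w → π j (π i w) = π i w

theorem SncAt.ret {P : Type} [NormedAddCommGroup P] [NormedSpace ℝ P] [Finite ι]
    (hc : ∀ i, IsClosed (Z i)) (hZ : ∀ i, Z i ⊆ X) (h : SncAt P X Z x) {i₀ : ι} (hx : x ∈ Z i₀) :
    Ret X Z i₀ x := by
  classical
  obtain ⟨f, W, O, ℓ, π, hL, hxO, h1, h2, h3⟩ := h
  set N : Set E := ⋂ i, if x ∈ Z i then univ else (Z i)ᶜ with hN
  have hNo : IsOpen N := isOpen_iInter_of_finite fun i => by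
    split_ifs
    · exact isOpen_univ
    · exact (hc i).isOpen_compl
  have hxN : x ∈ N := mem_iInter.2 fun i => by
    split_ifs with h
    · trivial
    · exact h
  have hNZ : ∀ y ∈ N, ∀ i, y ∈ Z i → x ∈ Z i := fun y hy i hi => by
    by_contra h
    have := mem_iInter.1 hy i
    rw [if_neg h] at this
    exact this hi
  set V : Set E := O ∩ N ∩ (O ∩ (fun y => π i₀ (ℓ y)) ⁻¹' W) with hV
  have lc : ContinuousOn ℓ O := hL.lC.continuousOn
  have hVo : IsOpen V := (hL.oO.inter hNo).inter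
    (((π i₀).continuous.comp_continuousOn lc).isOpen_inter_preimage hL.oO hL.oW)
  have fix : ∀ i, x ∈ Z i → ∀ y ∈ O, y ∈ Z i → π i (ℓ y) = ℓ y := fun i hi y hy hyZ =>
    (h1 i hi _ (hL.maps y hy)).1 (by rw [hL.right_inv (hZ i hyZ) hy]; exact hyZ)
  have hxV : x ∈ V :=
    ⟨⟨hxO, hxN⟩, hxO, by rw [mem_preimage, fix i₀ hx x hxO hx]; exact hL.maps x hxO⟩
  set A : E × ℝ → P := fun q => (1 - q.2) • π i₀ (ℓ q.1) + q.2 • ℓ q.1 with hA
  have AC : ∀ q : E × ℝ, q.1 ∈ V → ContDiffAt ℝ ∞ A q := by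
    intro q hq
    have e2 : ContDiffAt ℝ ∞ (fun q : E × ℝ => ℓ q.1) q := (hL.lC' hq.1.1).comp q contDiffAt_fst
    have e1 : ContDiffAt ℝ ∞ (fun q : E × ℝ => π i₀ (ℓ q.1)) q :=
      (π i₀).contDiff.contDiffAt.comp q e2
    exact ((contDiffAt_const.sub contDiffAt_snd).smul e1).add (contDiffAt_snd.smul e2)
  have AZ : ∀ q : E × ℝ, q.1 ∈ O → q.1 ∈ Z i₀ → A q = ℓ q.1 := fun q hq hqZ => by
    simp only [hA, fix i₀ hx _ hq hqZ]
    rw [← add_smul, sub_add_cancel, one_smul]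
  refine ⟨fun q => f (A q), (Prod.fst ⁻¹' V : Set (E × ℝ)) ∩ A ⁻¹' W,
    ContinuousOn.isOpen_inter_preimage (fun q hq => (AC q hq).continuousAt.continuousWithinAt)
      (hVo.preimage continuous_fst) hL.oW, fun t _ => ⟨hxV, ?_⟩,
    fun q hq => (hL.fC' hq.2).comp q (AC q hq.1), fun q hq => (hL.mem hq.2).1, fun q hq h => ?_,
    fun y hy h => ?_, fun y h => ?_, fun i q hq h => ?_⟩
  · rw [mem_preimage, AZ (x, t) hxO hx]
    exact hL.maps x hxO
  · show f (A q) = q.1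
    rw [AZ q hq.1.1.1 h]
    exact hL.right_inv (hZ _ h) hq.1.1.1
  · simp only [hA, sub_self, zero_smul, zero_add, one_smul]
    exact hL.right_inv hy h.1.1.1
  · simp only [hA, sub_zero, zero_smul, add_zero, one_smul]
    exact (h1 i₀ hx _ h.1.2.2).2 (h2 i₀ hx _)
  · have hi : x ∈ Z i := hNZ _ hq.1.1.2 i h
    have e1 := fix i hi _ hq.1.1.1 h
    refine (h1 i hi _ hq.2).2 ?_
    simp only [hA, map_add, map_smul, e1, h3 i₀ i hx hi _ e1]

/-- a finite family of closed subsets with local retractions -/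
structure Snc (X : Set E) (Z : ι → Set E) : Prop where
  closed : ∀ i, IsClosed (Z i)
  sub : ∀ i, Z i ⊆ X
  ret : ∀ i, ∀ x ∈ Z i, Ret X Z i x

theorem Snc.of_sncAt {P : Type} [NormedAddCommGroup P] [NormedSpace ℝ P] [Finite ι]
    (hc : ∀ i, IsClosed (Z i)) (hZ : ∀ i, Z i ⊆ X) (h : ∀ i, ∀ x ∈ Z i, SncAt P X Z x) :
    Snc X Z := ⟨hc, hZ, fun i x hx => (h i x hx).ret hc hZ hx⟩

theorem Snc.rel_one (hX : Sub n X) (h : Snc X Z) (i : ι) (hK : IsCompact K) (hKZ : K ⊆ Z i) :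
    Rel X Z K :=
  rel_of_local hX hK fun x hx => by
    obtain ⟨Fh, Ω, h1, h2, h3, h4, h5, h6, h7, h8⟩ := h.ret i x (hKZ hx)
    exact ⟨Sl Ω, isOpen_Sl h1, h2, fun L _ hL => rel_of_homotopy h.sub h1 (fun y hy => (hL hy).1) h3
      (fun q hq _ => h4 q hq) (fun y hy t ht => h5 (y, t) ((hL hy).1 t ht) (hKZ (hL hy).2)) h6 i
      (fun y _ hy => h7 y hy) h8⟩

/-- **relative Poincare lemma** along a family with normal crossings -/
theorem rel_snc [Finite ι] (hX : Sub n X) (h : Snc X Z) (hK : IsCompact K) (hKZ : K ⊆ ⋃ i, Z i) :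
    Rel X Z K := by
  have key : ∀ s : Set ι, s.Finite → ∀ K : Set E, IsCompact K → K ⊆ ⋃ i ∈ s, Z i → Rel X Z K := by
    intro s hs
    induction s, hs using Set.Finite.induction_on with
    | empty =>
      intro K _ hK
      rw [biUnion_empty, subset_empty_iff] at hK
      rw [hK]
      exact rel_empty
    | @insert i s _ hs ih =>
      intro K hK hKZ
      have c1 : IsCompact (K ∩ Z i) := hK.inter_right (h.closed i)
      have c2 : IsCompact (K ∩ ⋃ j ∈ s, Z j) :=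
        hK.inter_right (hs.isClosed_biUnion fun j _ => h.closed j)
      have e : K ∩ Z i ∪ K ∩ ⋃ j ∈ s, Z j = K := by
        rw [← inter_union_distrib_left, ← biUnion_insert]
        exact inter_eq_left.2 hKZ
      rw [← e]
      exact Rel.union hX c1 c2 (h.rel_one hX i c1 inter_subset_right) (ih _ c2 inter_subset_right)
        (h.rel_one hX i (c1.inter c2) (inter_subset_left.trans inter_subset_right))
  exact key univ (toFinite _) K hK (by rwa [biUnion_univ])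

/-- extension of a form on one member which vanishes on some intersections -/
theorem Snc.ext_one (h : Snc X Z) (i₀ : ι) (s : Set ι) {β : E → Ext E} (hβ : Sm (Z i₀) β)
    (h0 : ∀ j ∈ s, ResZero (Z i₀ ∩ Z j) β) :
    ∃ γ : E → Ext E, ContDiff ℝ ∞ γ ∧ Eqv (Z i₀) γ β ∧ ∀ j ∈ s, ResZero (Z j) γ := by
  obtain ⟨g, hg⟩ := exists_contMDiffMap_forall_mem_convex_of_local (n := (⊤ : ℕ∞)) (I := 𝓘(ℝ, E))
    (M := E) (F := Ext E)
    (t := fun y => {c | (y ∈ Z i₀ → rt (Z i₀) y c = rt (Z i₀) y (β y)) ∧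
      ∀ j ∈ s, y ∈ Z j → rt (Z j) y c = 0}) (fun y => by
      intro c hc c' hc' u v _ _ huv
      refine ⟨fun hy => ?_, fun j hj hy => ?_⟩
      · rw [map_add, map_smul, map_smul, hc.1 hy, hc'.1 hy, ← add_smul, huv, one_smul]
      · rw [map_add, map_smul, map_smul, hc.2 j hj hy, hc'.2 j hj hy, smul_zero, smul_zero,
          add_zero]) (fun x => by
      by_cases hx : x ∈ Z i₀
      · obtain ⟨Fh, Ω, h1, h2, h3, -, h5, -, h7, h8⟩ := h.ret i₀ x hx
        set V : Set E := (fun y : E => (y, (0 : ℝ))) ⁻¹' Ω with hV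
        have hVo : IsOpen V := h1.preimage (by fun_prop)
        have rC : ∀ y ∈ V, ContDiffAt ℝ ∞ (fun z : E => Fh (z, 0)) y := fun y hy =>
          (h3 _ hy).comp (f := fun z : E => (z, (0 : ℝ))) y (contDiffAt_id.prodMk contDiffAt_const)
        refine ⟨V, hVo.mem_nhds (h2 0 (left_mem_Icc.2 zero_le_one)),
          F.pull (fun z : E => Fh (z, 0)) β, ContDiffOn.contMDiffOn fun y hy =>
            (contDiffAt_pull (rC y hy) (by simp) (hβ _ (h7 y hy))).contDiffWithinAt,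
          fun y hy => ⟨fun hyZ => ?_, fun j hj hyZ => ?_⟩⟩
        · have e1 := eqv_pull_of_eq (X := Z i₀ ∩ V) (f := fun z : E => Fh (z, 0))
            (g := fun w => w) β (fun w hw => (rC w hw.2).differentiableAt (by simp))
            (fun w _ => differentiableAt_id) (fun w hw => h5 (w, 0) hw.2 hw.1)
          rw [(eqv_inter_iff hVo).1 e1 y hyZ hy, F.pull_id]
        · have e1 : ResZero (Z j ∩ V) (F.pull (fun z : E => Fh (z, 0)) β) :=
            ResZero.pull (Y := Z i₀ ∩ Z j) ⟨fun w hw => rC w hw.2,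
              fun w hw => ⟨h7 w hw.2, h8 j (w, 0) hw.2 hw.1⟩⟩ (h0 j hj)
          rw [(eqv_inter_iff hVo).1 (resZero_iff.1 e1) y hyZ hy]
          exact map_zero _
      · exact ⟨(Z i₀)ᶜ, (h.closed i₀).isOpen_compl.mem_nhds hx, fun _ => 0, contMDiffOn_const,
          fun y hy => ⟨fun hyZ => (hy hyZ).elim, fun j _ _ => map_zero _⟩⟩)
  exact ⟨g, g.contMDiff.contDiff, eqv_iff.2 fun y hy => (hg y).1 hy,
    fun j hj y hy => (hg y).2 j hj hy⟩

/-- **extension** of compatible forms -/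
theorem ext_snc [Finite ι] (h : Snc X Z) {α : ι → E → Ext E} (hα : ∀ i, Sm (Z i) (α i))
    (hc : ∀ i j, i ≠ j → Eqv (Z i ∩ Z j) (α i) (α j)) :
    ∃ η : E → Ext E, ContDiff ℝ ∞ η ∧ ∀ i, Eqv (Z i) η (α i) := by
  have key : ∀ s : Set ι, s.Finite →
      ∃ η : E → Ext E, ContDiff ℝ ∞ η ∧ ∀ i ∈ s, Eqv (Z i) η (α i) := by
    intro s hs
    induction s, hs using Set.Finite.induction_on with
    | empty => exact ⟨0, contDiff_const, fun i hi => hi.elim⟩
    | @insert i s hi hs ih =>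
      obtain ⟨η, h1, h2⟩ := ih
      obtain ⟨γ, g1, g2, g3⟩ := h.ext_one i s (β := α i - η)
        ((hα i).sub fun y _ => h1.contDiffAt) fun j hj =>
          (hc i j fun e => hi (e ▸ hj)).trans ((h2 j hj).mono_tan inter_subset_right).symm
      refine ⟨η + γ, h1.add g1, fun j hj => ?_⟩
      rcases hj with rfl | hj
      · have := (Eqv.refl η).add g2
        rwa [add_sub_cancel] at this
      · have := (h2 j hj).add (resZero_iff.1 (g3 j hj))
        rwa [add_zero] at this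
  obtain ⟨η, h1, h2⟩ := key univ (toFinite _)
  exact ⟨η, h1, fun i => h2 i (mem_univ i)⟩

/-- a closed form with compatible primitives on the members is exact near the union -/
theorem exN_snc [Finite ι] (hX : Sub n X) (h : Snc X Z) (hS : ∀ i, ∃ m, Sub m (Z i))
    (hK : IsCompact K) (hKZ : K ⊆ ⋃ i, Z i) (sa : SmN X K a) (ca : ClN X K a)
    {α : ι → E → Ext E} (hα : ∀ i, Sm (Z i) (α i)) (he : ∀ i, Eqv (Z i) a (F.d (α i)))
    (hc : ∀ i j, i ≠ j → Eqv (Z i ∩ Z j) (α i) (α j)) : ExN X K a := by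
  obtain ⟨η, h1, h2⟩ := ext_snc h hα hc
  have sη : Sm X η := fun y _ => h1.contDiffAt
  obtain ⟨ξ, g1, g2, -⟩ := rel_snc hX h hK hKZ (a - F.d η) (sa.sub (smN_of_sm sη.d))
    (ca.sub_d sa sη) (zN_of_resZero fun i => by
      obtain ⟨m, hm⟩ := hS i
      exact (he i).trans ((h2 i).d hm (fun y _ => h1.contDiffAt) (hα i)).symm)
  exact ExN.add_d (smN_of_sm sη) ⟨ξ, g1, g2⟩

/-- the special case of primitives vanishing on the intersections -/
theorem exN_snc_zero [Finite ι] (hX : Sub n X) (h : Snc X Z) (hS : ∀ i, ∃ m, Sub m (Z i))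
    (hK : IsCompact K) (hKZ : K ⊆ ⋃ i, Z i) (sa : SmN X K a) (ca : ClN X K a)
    {α : ι → E → Ext E} (hα : ∀ i, Sm (Z i) (α i)) (he : ∀ i, Eqv (Z i) a (F.d (α i)))
    (hc : ∀ i j, i ≠ j → ResZero (Z i ∩ Z j) (α i)) : ExN X K a :=
  exN_snc hX h hS hK hKZ sa ca hα he fun i j hij =>
    (resZero_iff.1 (hc i j hij)).trans (by
      rw [inter_comm]; exact (resZero_iff.1 (hc j i hij.symm)).symm)

namespace Par

variable {M : Set E'} {ν : E' → E}

theorem image_eq (h : Par m M X ν K') (hs : X \ K' ⊆ ν '' M) :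
    ν '' (M \ ν ⁻¹' K') = X ∩ K'ᶜ := by
  refine Subset.antisymm ?_ fun y hy => ?_
  · rintro _ ⟨z, hz, rfl⟩
    exact ⟨h.smap.maps hz.1, hz.2⟩
  · obtain ⟨z, hz, rfl⟩ := hs hy
    exact ⟨z, ⟨hz, hy.2⟩, rfl⟩

/-- a closed form vanishing near the exceptional set is the pull-back of a closed form -/
theorem push_zero (h : Par m M X ν K') (hK' : IsClosed K') (hs : X \ K' ⊆ ν '' M)
    {c : E' → Ext E'} (sc : Sm M c) (cc : Cl M c) (h0 : EqN M (M ∩ ν ⁻¹' K') c 0) :
    ∃ b : E → Ext E, ContDiff ℝ ∞ b ∧ Cl X b ∧ (∀ x ∈ K', ∀ᶠ y in 𝓝 x, b y = 0) ∧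
      Eqv M (F.pull ν b) c := by
  obtain ⟨b, h1, h2, h3⟩ := h.exists_push hK' sc h0
  have sb : Sm X b := fun y _ => h1.contDiffAt
  refine ⟨b, h1, fun y hy => ?_, h2, h3⟩
  by_cases hyK : y ∈ K'
  · have e : b =ᶠ[𝓝 y] fun _ => 0 := h2 y hyK
    rw [F.d_congr e, F.d_const, map_zero]
  · obtain ⟨z, hz, rfl⟩ := hs ⟨hy, hyK⟩
    have e1 : Eqv M (F.pull ν (F.d b)) 0 := ((d_pull_eqv h.smap sb).symm.trans
      (h3.d h.clo.sub (sb.pull h.smap) sc)).trans (resZero_iff.1 cc)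
    have e2 := h.rt_eq_zero hK' hz hyK (w := F.d b) (resZero_iff.2 e1 z hz)
    rw [h.image_eq hs] at e2
    have e3 : ∀ T T' : Submodule ℝ E, T = T' → pb T.subtype (F.d b (ν z)) = 0 →
        pb T'.subtype (F.d b (ν z)) = 0 := by
      rintro T T' rfl e; exact e
    exact e3 _ _ (Tan_inter_open hK'.isOpen_compl hyK) e2

/-- **push**: a closed form which is exact near the exceptional set is a pull-back -/
theorem push (h : Par m M X ν K') (hK' : IsClosed K') (hs : X \ K' ⊆ ν '' M)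
    {c : E' → Ext E'} (sc : Sm M c) (cc : Cl M c) (he : ExN M (M ∩ ν ⁻¹' K') c) :
    ∃ b : E → Ext E, ContDiff ℝ ∞ b ∧ Cl X b ∧ (∀ x ∈ K', ∀ᶠ y in 𝓝 x, b y = 0) ∧
      Coh M c (F.pull ν b) := by
  obtain ⟨η, h1, h2⟩ := he.exists_global (h.isCompact_pre hK')
  obtain ⟨b, g1, g2, g3, g4⟩ := h.push_zero hK' hs (sc.sub h1.d) (Cl.sub sc h1.d cc (d_d' h1))
    (eqN_sub_zero.2 h2)
  refine ⟨b, g1, g2, g3, η, h1, ?_⟩
  have := (Eqv.refl (X := M) c).sub g4
  rwa [sub_sub_cancel] at this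

/-- homogeneous version -/
theorem push_hom (h : Par m M X ν K') (hK' : IsClosed K') (hs : X \ K' ⊆ ν '' M)
    {c : E' → Ext E'} (hc : Hom p c) (sc : Sm M c) (cc : Cl M c)
    (he : ExN M (M ∩ ν ⁻¹' K') c) :
    ∃ b : E → Ext E, Sm X b ∧ Cl X b ∧ Hom p b ∧ Coh M c (F.pull ν b) := by
  obtain ⟨b, g1, g2, -, g4⟩ := h.push hK' hs sc cc he
  have sb : Sm X b := fun y _ => g1.contDiffAt
  refine ⟨T.dp p b, sb.dp p, Cl.dp p sb g2, hom_dp p b, ?_⟩
  have := g4.dp p
  rwa [hc.dp_eq, dp_pull] at this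

/-- vanishing on a subset of the stratum can be checked upstairs -/
theorem resZero_image (h : Par m M X ν K') (hK' : IsClosed K') {T : Set E'}
    (hT : T ⊆ M \ ν ⁻¹' K') {w : E → Ext E} (hw : ResZero T (F.pull ν w)) :
    ResZero (ν '' T) w := by
  rintro _ ⟨y, hy, rfl⟩
  obtain ⟨O, σ, hO, hyO, -, hσ, hσν⟩ := h.exists_inv hK' (hT hy).1 (hT hy).2
  have m1 : SMap (ν '' T ∩ O) T σ := ⟨fun q hq => (hσ q hq.2).1, by
    rintro _ ⟨⟨z, hz, rfl⟩, hzO⟩
    rw [hσν z (hT hz).1 hzO]; exact hz⟩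
  have e1 := resZero_iff.1 (ResZero.pull m1 hw)
  have e2 : Eqv (ν '' T ∩ O) (F.pull σ (F.pull ν w)) (F.pull (ν ∘ σ) w) := Eqv.of_eq fun q hq =>
    F.pull_comp ((hσ q hq.2).1.differentiableAt (by simp)) (h.smap.diff (hσ q hq.2).2)
  have e3 := eqv_pull_of_eq (X := ν '' T ∩ O) (f := ν ∘ σ) (g := fun q => q) w
    (fun q hq => (h.smap.diff (hσ q hq.2).2).comp q ((hσ q hq.2).1.differentiableAt (by simp)))
    (fun q _ => differentiableAt_id) (by
      rintro _ ⟨⟨z, hz, rfl⟩, hzO⟩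
      rw [Function.comp_apply, hσν z (hT hz).1 hzO])
  have e4 := (eqv_inter_iff hO).1 (e3.symm.trans (e2.symm.trans e1)) (ν y) ⟨y, hy, rfl⟩ hyO
  rw [F.pull_id, Pi.zero_apply, map_zero] at e4
  exact e4

/-- forms on an embedded manifold come from the ambient space -/
theorem exists_push_all (h : Par m M X ν ∅) {θ₁ : E' → Ext E'} (hθ : Sm M θ₁) :
    ∃ θ : E → Ext E, ContDiff ℝ ∞ θ ∧ Eqv M (F.pull ν θ) θ₁ := by
  obtain ⟨θ, h1, -, h3⟩ := h.exists_push isClosed_empty hθ (by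
    simp only [EqN, preimage_empty, inter_empty, nhdsSet_empty, eventually_bot])
  exact ⟨θ, h1, h3⟩

theorem sub_all (h : Par m M X ν ∅) : Sub m (ν '' M) := by
  have := h.sub isClosed_empty
  rwa [preimage_empty, sdiff_empty] at this

end Par

/-- the members are embedded closed manifolds with their own ambient spaces, and the primitives
vanish on the intersections -/
theorem exN_snc_par [Finite ι] (hX : Sub n X) (h : Snc X Z) {G : ι → Type}
    [∀ i, NormedAddCommGroup (G i)] [∀ i, NormedSpace ℝ (G i)] [∀ i, FiniteDimensional ℝ (G i)]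
    {M : ∀ i, Set (G i)} {ν : ∀ i, G i → E} {d : ι → ℕ} (hP : ∀ i, Par (d i) (M i) X (ν i) ∅)
    (hZ : ∀ i, ν i '' M i = Z i) (hK : IsCompact K) (hKZ : K ⊆ ⋃ i, Z i) (sa : SmN X K a)
    (ca : ClN X K a) {α : ∀ i, G i → Ext (G i)} (hα : ∀ i, Sm (M i) (α i))
    (he : ∀ i, Eqv (M i) (F.pull (ν i) a) (F.d (α i)))
    (hc : ∀ i j, i ≠ j → ResZero (M i ∩ ν i ⁻¹' Z j) (α i)) : ExN X K a := by
  choose θ h1 h2 using fun i => (hP i).exists_push_all (hα i)
  have hM : ∀ i, M i ⊆ M i \ ν i ⁻¹' ∅ := fun i y hy => ⟨hy, fun h => h⟩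
  refine exN_snc_zero hX h (fun i => ⟨d i, hZ i ▸ (hP i).sub_all⟩) hK hKZ sa ca (α := θ)
    (fun i y _ => (h1 i).contDiffAt) (fun i => ?_) (fun i j hij => ?_)
  · have sθ : Sm X (θ i) := fun y _ => (h1 i).contDiffAt
    have e1 : Eqv (M i) (F.pull (ν i) a) (F.pull (ν i) (F.d (θ i))) :=
      (he i).trans (((h2 i).d (hP i).clo.sub (sθ.pull (hP i).smap) (hα i)).symm.trans
        (d_pull_eqv (hP i).smap sθ))
    rw [← hZ i]
    refine (hP i).resZero_image isClosed_empty (hM i) ?_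
    rw [pull_sub']
    exact e1
  · have e1 : ν i '' (M i ∩ ν i ⁻¹' Z j) = Z i ∩ Z j := by
      rw [image_inter_preimage, hZ i]
    rw [← e1]
    refine (hP i).resZero_image isClosed_empty (inter_subset_left.trans (hM i)) ?_
    exact resZero_iff.2 (((h2 i).mono_tan inter_subset_left).trans (resZero_iff.1 (hc i j hij)))

end Crest.Agent.X262.Van
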