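import Crest.Agent.X262.Van.Snc
import Crest.Agent.X262.PD.Cx

/-!
# Row 262, package VAN (helper47): supports

* `exN_of_par` : a closed form whose pull-back to an embedded closed manifold is exact is exact
  near the image;
* `J_sup`      : the integral of a product of forms with disjoint cohomological supports;
* `exN_push`   : a push-forward is exact near every compact set which misses the image;
* `sup_cls`    : the statement for classes.
-/

set_option autoImplicit false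
set_option linter.unusedSectionVars false

open MeasureTheory Set Filter Topology Module
open scoped ContDiff
open Crest.Agent.R208 Crest.Agent.R208.F Crest.Agent.R208.FI Crest.Agent.R208.CW
open Crest.Agent.R208.T

noncomputable section

namespace Crest.Agent.X262.Van

open Crest.Agent.X262.PD

variable {E : Type} [NormedAddCommGroup E] [NormedSpace ℝ E] [FiniteDimensional ℝ E]
  {E' : Type} [NormedAddCommGroup E'] [NormedSpace ℝ E'] [FiniteDimensional ℝ E']
  {G : Type} [NormedAddCommGroup G] [NormedSpace ℝ G] [FiniteDimensional ℝ G]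
  {G' : Type} [NormedAddCommGroup G'] [NormedSpace ℝ G'] [FiniteDimensional ℝ G']
  {X K : Set E} {M : Set E'} {ν : E' → E} {n m : ℕ} {a b o : E → Ext E}

theorem exN_of_par (hX : Sub n X) (h : Par m M X ν ∅) (sa : Sm X a) (ca : Cl X a)
    (he : Coh M (F.pull ν a) 0) : ExN X (ν '' M) a := by
  obtain ⟨α, h1, h2⟩ := he
  rw [sub_zero] at h2
  obtain ⟨θ, g1, g2⟩ := h.exists_push_all h1
  have sθ : Sm X θ := fun y _ => g1.contDiffAt
  have e1 : Eqv M (F.pull ν a) (F.pull ν (F.d θ)) :=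
    h2.trans ((g2.d h.clo.sub (sθ.pull h.smap) h1).symm.trans (d_pull_eqv h.smap sθ))
  have e2 : ResZero (ν '' M) (a - F.d θ) :=
    h.resZero_image isClosed_empty (fun y hy => ⟨hy, fun h => h⟩) (by rw [pull_sub']; exact e1)
  obtain ⟨η, u1, u2, -⟩ := rel' hX h.sub_all (image_subset_iff.2 h.smap.maps) h.isCompact_image
    Subset.rfl (smN_of_sm (sa.sub sθ.d)) ((clN_of_cl ca).sub_d (smN_of_sm sa) sθ)
    (eqN_of_eqv (resZero_iff.1 e2))
  exact ExN.add_d (smN_of_sm sθ) ⟨η, u1, u2⟩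

/-- a form which is exact near `K` is cohomologous to a form vanishing identically near `K` -/
theorem ExN.exists_rep' (hK : IsCompact K) (sa : Sm X a) (h : ExN X K a) :
    ∃ a' : E → Ext E, Sm X a' ∧ Coh X a a' ∧ ∀ᶠ x in 𝓝ˢ K, a' x = 0 := by
  obtain ⟨η, h1, h3⟩ := h.exists_global hK
  obtain ⟨U, hU, hKU, hp⟩ := exists_open (eqN_sub_zero.2 h3)
  obtain ⟨χ, hχ, c0, c1, -⟩ := GP.exists_cut (K₁ := K) (K₂ := Uᶜ) hK.isClosed hU.isClosed_compl
    (Set.disjoint_left.2 fun x hx hx' => hx' (hKU hx))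
  have s1 : Sm X (a - F.d η) := sa.sub h1.d
  have e1 : Eqv X (fun x => χ x • (a - F.d η) x) (a - F.d η) := by
    refine eqv_iff.2 fun x hx => ?_
    by_cases hxU : x ∈ U
    · have e2 := hp x hxU hx
      rw [Pi.zero_apply, map_zero] at e2
      rw [map_smul]
      change χ x • rt X x _ = rt X x _
      rw [e2, smul_zero]
    · rw [(c1 x hxU).self_of_nhds, one_smul]
  refine ⟨fun x => χ x • (a - F.d η) x, fun x hx => hχ.contDiffAt.smul (s1 x hx), ⟨η, h1, ?_⟩, ?_⟩
  · have := (Eqv.refl (X := X) a).sub e1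
    rwa [sub_sub_cancel] at this
  · refine eventually_nhdsSet_iff_forall.2 fun x hx => ?_
    filter_upwards [c0 x hx] with y hy
    rw [hy, zero_smul]

/-- disjoint cohomological supports -/
theorem J_sup {B D : Set G} {k : ℕ} {oB w : G → Ext G} {μ : G → E} {C : Set E} (hB : Clo k B)
    (hoB : Ori k B oB) (hX : Sub n X) (hμ : SMap B X μ) (hD : IsCompact D)
    (hC : ∀ y ∈ B, μ y ∈ C → y ∈ D) (sw : Sm B w) (cw : Cl B w) (ew : ExN B D w) (sa : Sm X a)
    (ca : Cl X a) (ea : ∀ K, IsCompact K → K ⊆ X \ C → ExN X K a) :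
    J k B oB (w * F.pull μ a) = 0 := by
  obtain ⟨w', h1, h2, h3⟩ := ew.exists_rep' hD sw
  obtain ⟨U, hU, hDU, hp⟩ := exists_open h3
  have hK : IsCompact (μ '' (B \ U)) := (hB.compact.diff hU).image_of_continuousOn fun y hy =>
    (hμ.smooth y hy.1).continuousAt.continuousWithinAt
  obtain ⟨a', g1, g2, g3⟩ := (ea _ hK (by
    rintro _ ⟨y, hy, rfl⟩
    exact ⟨hμ.maps hy.1, fun h => hy.2 (hDU (hC y hy.1 h))⟩)).exists_rep' hK sa
  rw [J_mul_coh_right hB hoB sw cw (sa.pull hμ) (g1.pull hμ) (g2.pull hμ),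
    J_mul_coh_left hB hoB sw h1 h2 (g1.pull hμ)
      (Cl.pull hμ g1 (Coh.cl hX g1 sa g2.symm ca)), ← J_zero' (n := k) (X := B) (o := oB)]
  refine J_eqv hB (Eqv.of_eq fun y hy => ?_)
  by_cases hyU : y ∈ U
  · rw [Pi.mul_apply, hp y hyU, zero_mul, Pi.zero_apply]
  · rw [Pi.mul_apply, F.pull, g3.self_of_nhdsSet _ ⟨y, ⟨hy, hyU⟩, rfl⟩, map_zero, mul_zero,
      Pi.zero_apply]

theorem coh_of_rcl (ha : EC X a) (hb : EC X b) (h : rcl ha + Complex.I • rcl hb = 0) :
    Coh X a 0 ∧ Coh X b 0 := by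
  rw [← cls_eq_rcl, ← rcl_zero, rcl, cls_eq_iff_coh] at h
  exact h

/-- a push-forward is exact away from the image -/
theorem exN_push {A : Set G} {μ : G → E} (hX : Clo n X) (ho : Ori n X o) (hn : Even n)
    (hA : IsCompact A) (hμ : SMap A X μ) (ha : EC X a) (hb : EC X b)
    (h : ∀ z, CW.H.map hμ z = 0 → integ hX ho ((rcl ha + Complex.I • rcl hb) * z) = 0)
    (hK : IsCompact K) (hKX : K ⊆ X \ μ '' A) : ExN X K a ∧ ExN X K b := by
  have hc : IsOpen (μ '' A)ᶜ := (hA.image_of_continuousOn fun y hy =>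
    (hμ.smooth y hy).continuousAt.continuousWithinAt).isClosed.isOpen_compl
  have key : ∀ φ, Cs X (μ '' A)ᶜ φ → Cl X φ → J n X o (a * φ) = 0 ∧ J n X o (b * φ) = 0 := by
    intro φ hφ cφ
    have e1 := ec_ev hφ.sm cφ
    have e2 : CW.H.map hμ (rcl e1) = 0 := by
      rw [← rcl_pull, rcl_eq_zero_iff]
      refine Coh.of_eqv (Eqv.of_eq fun y hy => ?_)
      have e3 : φ (μ y) = 0 :=
        (hφ.off _ (hμ.maps hy) (not_not.2 (mem_image_of_mem μ hy))).self_of_nhds
      rw [F.pull, PD.ev, Pi.smul_apply, Pi.add_apply, e3, map_zero, add_zero, smul_zero, map_zero,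
        Pi.zero_apply]
    have e4 := h _ e2
    rw [add_mul, smul_mul_assoc, ← rcl_mul, ← rcl_mul, map_add, map_smul, integ_rcl, integ_rcl,
      smul_eq_mul] at e4
    have e5 : ∀ c : E → Ext E, EC X c → J n X o (c * PD.ev φ) = 0 → J n X o (c * φ) = 0 := by
      intro c hc h0
      rw [← ev_add_od φ, mul_add, J_add' hX ho (hc.sm.mul e1.sm) (hc.sm.mul (sm_od hφ.sm)), h0,
        zero_add]
      exact J_odd hX hn fun x => by rw [Pi.mul_apply, map_mul, hc.inv, inv_od, mul_neg]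
    exact ⟨e5 a ha (by simpa using congrArg Complex.re e4),
      e5 b hb (by simpa using congrArg Complex.im e4)⟩
  have fin : ∀ c : E → Ext E, EC X c →
      (∀ φ, Cs X (μ '' A)ᶜ φ → Cl X φ → J n X o (c * φ) = 0) → ExN X K c := by
    intro c hc' h0
    obtain ⟨U, hU, hKU, -, ξ, g1, g2⟩ := pd_loc hX ho hK (hKX.trans sdiff_subset) hc
      (fun y hy => (hKX hy).2) (hc'.sm.mono inter_subset_left) h0
    rw [sub_zero] at g2
    exact ⟨ξ, of_open hU hKU fun y hy hyX => g1 y ⟨hyX, hy⟩,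
      of_open hU hKU fun y hy hyX => (eqv_inter_iff hU).1 g2 y hyX hy⟩
  exact ⟨fin a ha fun φ h1 h2 => (key φ h1 h2).1, fin b hb fun φ h1 h2 => (key φ h1 h2).2⟩

/-- **supports**: `τ` is orthogonal to the classes killed by `ρ : A → X`, the preimage of `ρ A`
under `μ : B → X` lies in the embedded manifold `i : M → B`, and `y` restricts to zero on `M` -/
theorem sup_cls {A : Set G'} {ρ : G' → E} {B : Set G} {k : ℕ} {oB : G → Ext G} {μ : G → E}
    {i : E' → G} (hX : Clo n X) (ho : Ori n X o) (hn : Even n) (hA : IsCompact A)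
    (hρ : SMap A X ρ) (hB : Clo k B) (hoB : Ori k B oB) (hμ : SMap B X μ) (hi : Par m M B i ∅)
    (hs : ∀ y ∈ B, μ y ∈ ρ '' A → y ∈ i '' M) {τ : CW.H X}
    (hτ : ∀ z, CW.H.map hρ z = 0 → integ hX ho (τ * z) = 0) {y : CW.H B}
    (hy : CW.H.map hi.smap y = 0) : integ hB hoB (y * CW.H.map hμ τ) = 0 := by
  obtain ⟨a, b, ha, hb, rfl⟩ := exists_rcl τ
  obtain ⟨w, w', hw, hw', rfl⟩ := exists_rcl y
  rw [map_add, map_smul, ← rcl_pull, ← rcl_pull] at hy
  obtain ⟨z1, z2⟩ := coh_of_rcl _ _ hy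
  have e1 := exN_of_par hB.sub hi hw.sm hw.cl z1
  have e2 := exN_of_par hB.sub hi hw'.sm hw'.cl z2
  have key : ∀ (v : G → Ext G) (hv : EC B v), ExN B (i '' M) v → ∀ (c : E → Ext E) (hc : EC X c),
      (∀ K, IsCompact K → K ⊆ X \ ρ '' A → ExN X K c) →
      integ hB hoB (rcl hv * CW.H.map hμ (rcl hc)) = 0 := by
    intro v hv ev c hc ec
    rw [← rcl_pull, ← rcl_mul, integ_rcl,
      J_sup hB hoB hX.sub hμ hi.isCompact_image hs hv.sm hv.cl ev hc.sm hc.cl ec]
    rfl
  have f1 := fun K hK hKX => (exN_push (K := K) hX ho hn hA hρ ha hb hτ hK hKX).1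
  have f2 := fun K hK hKX => (exN_push (K := K) hX ho hn hA hρ ha hb hτ hK hKX).2
  simp only [map_add, map_smul, add_mul, mul_add, smul_mul_assoc, mul_smul_comm,
    key w hw e1 a ha f1, key w hw e1 b hb f2, key w' hw' e2 a ha f1, key w' hw' e2 b hb f2,
    smul_zero, add_zero]

end Crest.Agent.X262.Van
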